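import Vale.Agent.P021.Arith.OddPrimes

/-!
The `2`-adic saving: expand the integrand around the lower end point on the disc of radius `(1+i)^3`.
-/

namespace Vale.Agent.P021.Arith

open Polynomial

noncomputable section

instance factTwo : Fact (Nat.Prime 2) := ⟨Nat.prime_two⟩

/-- Gaussian numbers integral at `2` -/
def O2 : Subring ℂ := gs (pSub 2)

/-- the prime `1+i` -/
def pi2 : ℂ := 1 + Complex.I

/-- `w` is divisible by `(1+i)^h` -/
def Lv (h : ℤ) (w : ℂ) : Prop := ∃ u ∈ O2, w = pi2 ^ h * u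

lemma pi2_ne : pi2 ≠ 0 := by
  intro h
  simpa [pi2] using congrArg Complex.re h

lemma o2_I : Complex.I ∈ O2 := gs_I

lemma o2_pi2 : pi2 ∈ O2 := O2.add_mem O2.one_mem o2_I

lemma o2_inv_odd {k : ℕ} (h : ¬ 2 ∣ k) : (k : ℂ)⁻¹ ∈ O2 := by
  have := gs_ratCast (inv_nat_mem (p := 2) h)
  push_cast at this
  exact this

lemma lv_zero (h : ℤ) : Lv h 0 := ⟨0, O2.zero_mem, by simp⟩

lemma lv_add {h : ℤ} {a b : ℂ} (ha : Lv h a) (hb : Lv h b) : Lv h (a + b) := by
  obtain ⟨u, hu, rfl⟩ := ha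
  obtain ⟨v, hv, rfl⟩ := hb
  exact ⟨u + v, O2.add_mem hu hv, by ring⟩

lemma lv_neg {h : ℤ} {a : ℂ} (ha : Lv h a) : Lv h (-a) := by
  obtain ⟨u, hu, rfl⟩ := ha
  exact ⟨-u, O2.neg_mem hu, by ring⟩

lemma lv_mul {h k : ℤ} {a b : ℂ} (ha : Lv h a) (hb : Lv k b) : Lv (h + k) (a * b) := by
  obtain ⟨u, hu, rfl⟩ := ha
  obtain ⟨v, hv, rfl⟩ := hb
  exact ⟨u * v, O2.mul_mem hu hv, by rw [zpow_add₀ pi2_ne]; ring⟩

lemma lv_of_mem {a : ℂ} (ha : a ∈ O2) : Lv 0 a := ⟨a, ha, by simp⟩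

lemma lv_mono {h k : ℤ} {a : ℂ} (ha : Lv h a) (hk : k ≤ h) : Lv k a := by
  obtain ⟨d, hd⟩ := Int.eq_ofNat_of_zero_le (show 0 ≤ h - k by omega)
  obtain ⟨u, hu, rfl⟩ := ha
  refine ⟨pi2 ^ d * u, O2.mul_mem (pow_mem o2_pi2 d) hu, ?_⟩
  rw [← zpow_natCast pi2 d, ← mul_assoc, ← zpow_add₀ pi2_ne, ← hd, add_sub_cancel]

lemma lv_mem {h : ℤ} {a : ℂ} (ha : Lv h a) (hh : 0 ≤ h) : a ∈ O2 := by
  obtain ⟨u, hu, rfl⟩ := lv_mono ha hh
  simpa using hu

lemma lv_sum {ι : Type*} (s : Finset ι) {h : ℤ} (f : ι → ℂ) (hf : ∀ i ∈ s, Lv h (f i)) :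
    Lv h (∑ i ∈ s, f i) :=
  Finset.sum_induction _ _ (fun _ _ => lv_add) (lv_zero h) hf

lemma lv_pow {h : ℤ} {a : ℂ} (ha : Lv h a) (k : ℕ) : Lv (h * k) (a ^ k) := by
  induction k with
  | zero => simpa using lv_of_mem O2.one_mem
  | succ k ih =>
    rw [pow_succ]
    convert lv_mul ih ha using 2
    push_cast; ring

lemma lv_int (k : ℤ) : Lv 0 (k : ℂ) := lv_of_mem (intCast_mem O2 k)

lemma two_eq : (2 : ℂ) = pi2 ^ (2 : ℤ) * (-Complex.I) := by
  rw [zpow_two, pi2]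
  linear_combination (Complex.I + 2) * Complex.I_mul_I

lemma lv_two : Lv 2 (2 : ℂ) := ⟨-Complex.I, O2.neg_mem o2_I, two_eq⟩

lemma lv_inv_two : Lv (-2) ((2 : ℂ)⁻¹) := by
  refine ⟨Complex.I, o2_I, ?_⟩
  apply inv_eq_of_mul_eq_one_right
  rw [two_eq, zpow_neg, ← mul_assoc, mul_comm (pi2 ^ (2 : ℤ)) (-Complex.I),
    mul_assoc (-Complex.I), mul_inv_cancel₀ (zpow_ne_zero _ pi2_ne)]
  linear_combination -Complex.I_mul_I

/-- dividing by a natural number costs at most that number -/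
lemma lv_inv_nat {k : ℕ} (hk : 1 ≤ k) : Lv (-(k : ℤ)) ((k : ℂ)⁻¹) := by
  obtain ⟨v, c, hc, rfl⟩ := Nat.exists_eq_two_pow_mul_odd (n := k) (by omega)
  have hc' : ¬ 2 ∣ c := by
    rw [Nat.odd_iff] at hc
    omega
  have h2v : 2 * v ≤ 2 ^ v := by
    clear hk
    induction v with
    | zero => simp
    | succ v ih =>
      rcases Nat.eq_zero_or_pos v with rfl | hv
      · norm_num
      · rw [pow_succ]; omega
  have hcpos : 0 < c := hc.pos
  have hle : 2 * v ≤ 2 ^ v * c := h2v.trans (Nat.le_mul_of_pos_right _ hcpos)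
  have hle' : 2 * (v : ℤ) ≤ ((2 ^ v * c : ℕ) : ℤ) := by exact_mod_cast hle
  have : Lv (-2 * (v : ℤ) + 0) ((((2 ^ v * c : ℕ) : ℂ))⁻¹) := by
    push_cast
    rw [mul_inv, ← inv_pow]
    exact lv_mul (lv_pow lv_inv_two v) (lv_of_mem (o2_inv_odd hc'))
  exact lv_mono this (by omega)

/-! ### truncated binomial series -/

/-- truncated primitive of `(a+X)^e` at `d` -/
def trunc (N : ℕ) (a d : ℂ) (e : ℤ) : ℂ :=
  ∑ i ∈ Finset.range N, ((Ring.choose e i : ℤ) : ℂ) * a ^ (e - i) * d ^ (i + 1) / ((i : ℂ) + 1)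

lemma choose_absorb (e : ℤ) (i : ℕ) :
    ((i : ℤ) + 1) * Ring.choose e (i + 1) = e * Ring.choose (e - 1) i := by
  have := Ring.choose_smul_choose e (n := i + 1) (k := 1) (by omega)
  simpa [Ring.choose_one_right] using this

/-- partial sums of the binomial series of `(1+x)^r` -/
def bsum (N : ℕ) (x : ℂ) (r : ℤ) : ℂ := ∑ i ∈ Finset.range (N + 1), ((Ring.choose r i : ℤ) : ℂ) * x ^ i

lemma bsum_step (N : ℕ) (x : ℂ) (r : ℤ) :
    bsum N x (r + 1) = (1 + x) * bsum N x r - ((Ring.choose r N : ℤ) : ℂ) * x ^ (N + 1) := by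
  induction N with
  | zero => simp [bsum, Ring.choose_zero_right]
  | succ N ih =>
    rw [bsum, Finset.sum_range_succ, ← bsum, ih]
    conv_rhs => rw [bsum, Finset.sum_range_succ, ← bsum]
    rw [Ring.choose_succ_succ]
    push_cast
    ring

lemma bsum_zero (N : ℕ) (x : ℂ) : bsum N x 0 = 1 := by
  rw [bsum, Finset.sum_range_succ']
  simp [Ring.choose_zero_succ, Ring.choose_zero_right]

lemma bsum_neg {x : ℂ} (hx : Lv 1 x) (N j : ℕ) :
    Lv (N + 1 : ℤ) (bsum N x (-(j : ℤ)) * (1 + x) ^ j - 1) := by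
  induction j with
  | zero =>
    simp [bsum_zero]
    exact lv_zero _
  | succ j ih =>
    have h1 : 1 + x ∈ O2 := O2.add_mem O2.one_mem (lv_mem hx (by norm_num))
    have hs := bsum_step N x (-((j + 1 : ℕ) : ℤ))
    rw [show -((j + 1 : ℕ) : ℤ) + 1 = -(j : ℤ) by push_cast; ring] at hs
    have he : bsum N x (-((j + 1 : ℕ) : ℤ)) * (1 + x) ^ (j + 1) - 1 =
        (bsum N x (-(j : ℤ)) * (1 + x) ^ j - 1)
          + x ^ (N + 1) * (((Ring.choose (-((j + 1 : ℕ) : ℤ)) N : ℤ) : ℂ) * (1 + x) ^ j) := by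
      rw [hs]; ring
    rw [he]
    refine lv_add ih ?_
    have h3 := lv_mul (lv_pow hx (N + 1))
      (lv_of_mem (O2.mul_mem (intCast_mem O2 (Ring.choose (-((j + 1 : ℕ) : ℤ)) N)) (pow_mem h1 j)))
    convert h3 using 1
    push_cast; ring

/-- the truncation error -/
lemma trunc_error {a d : ℂ} (ha : a ≠ 0) (had : a + d ≠ 0) (hai : Lv (-3) a⁻¹)
    (hx : Lv 1 (d / a)) (hunit : (1 + d / a)⁻¹ ∈ O2) {N j : ℕ} {k : ℤ}
    (hk : k ≠ 0) (hkN : k ≤ N) (hj : -k ≤ j) :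
    Lv ((N : ℤ) + 1 - 4 * j) (((a + d) ^ k - a ^ k) / (k : ℂ) - trunc N a d (k - 1)) := by
  rcases lt_or_gt_of_ne hk with hneg | hpos
  · obtain ⟨m, rfl⟩ : ∃ m : ℕ, k = -(m : ℤ) := ⟨(-k).toNat, by omega⟩
    set x := d / a with hxdef
    have hd : a + d = a * (1 + x) := by rw [hxdef]; field_simp
    have h1x : (1 + x) ≠ 0 := by
      intro h; rw [h, mul_zero] at hd; exact had hd
    have hm : (m : ℂ) ≠ 0 := Nat.cast_ne_zero.2 (by omega)
    have ht : trunc N a d (-(m : ℤ) - 1) = a ^ (-(m : ℤ)) * (bsum N x (-(m : ℤ)) - 1) / (-(m : ℂ)) := by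
      rw [trunc, bsum, Finset.sum_range_succ', Ring.choose_zero_right]
      simp only [Int.cast_one, pow_zero, mul_one, add_sub_cancel_right]
      rw [Finset.mul_sum, Finset.sum_div]
      refine Finset.sum_congr rfl fun i _ => ?_
      have hab := congrArg (fun t : ℤ => (t : ℂ)) (choose_absorb (-(m : ℤ)) i)
      push_cast at hab
      rw [hxdef, div_pow, show -(m : ℤ) - 1 - (i : ℤ) = -(m : ℤ) - ((i + 1 : ℕ) : ℤ) by push_cast; ring,
        zpow_sub₀ ha, zpow_natCast]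
      have hi : (i : ℂ) + 1 ≠ 0 := Nat.cast_add_one_ne_zero i
      have := pow_ne_zero (i + 1) ha
      field_simp
      linear_combination d ^ (i + 1) * hab
    have he : ((a + d) ^ (-(m : ℤ)) - a ^ (-(m : ℤ))) / ((-(m : ℤ) : ℤ) : ℂ) - trunc N a d (-(m : ℤ) - 1)
        = (bsum N x (-(m : ℤ)) * (1 + x) ^ m - 1) * ((1 + x)⁻¹) ^ m * (a⁻¹) ^ m * (m : ℂ)⁻¹ := by
      rw [ht, hd, mul_zpow, zpow_neg, zpow_neg, zpow_natCast, zpow_natCast, inv_pow, inv_pow]
      have := pow_ne_zero m ha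
      have := pow_ne_zero m h1x
      push_cast
      field_simp
      ring
    rw [he]
    have h := lv_mul (lv_mul (lv_mul (bsum_neg hx N m) (lv_of_mem (pow_mem hunit m))) (lv_pow hai m))
      (lv_inv_nat (k := m) (by omega))
    exact lv_mono h (by omega)
  · obtain ⟨m, rfl⟩ : ∃ m : ℕ, k = ((m + 1 : ℕ) : ℤ) := ⟨(k - 1).toNat, by omega⟩
    have he : ((a + d) ^ ((m + 1 : ℕ) : ℤ) - a ^ ((m + 1 : ℕ) : ℤ)) / (((m + 1 : ℕ) : ℤ) : ℂ)
        = trunc N a d (((m + 1 : ℕ) : ℤ) - 1) := by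
      rw [zpow_natCast, zpow_natCast, add_comm a d, add_pow, Finset.sum_range_succ']
      simp only [pow_zero, one_mul, Nat.choose_zero_right, Nat.cast_one, mul_one, Nat.sub_zero,
        add_sub_cancel_right]
      rw [trunc, show ((m + 1 : ℕ) : ℤ) - 1 = (m : ℤ) by push_cast; ring, Finset.sum_div,
        ← Finset.sum_subset (Finset.range_mono (show m + 1 ≤ N by omega))]
      · refine Finset.sum_congr rfl fun i hi => ?_
        have hi' := Finset.mem_range.1 hi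
        rw [Ring.choose_natCast, Nat.add_sub_add_right, ← Nat.cast_sub (by omega : i ≤ m), zpow_natCast]
        have hc : (((m + 1).choose (i + 1) : ℂ)) * ((i : ℂ) + 1) = ((m : ℂ) + 1) * (m.choose i : ℂ) := by
          exact_mod_cast (Nat.add_one_mul_choose_eq m i).symm
        have h1 : (i : ℂ) + 1 ≠ 0 := Nat.cast_add_one_ne_zero i
        have h2 : (m : ℂ) + 1 ≠ 0 := Nat.cast_add_one_ne_zero m
        push_cast
        field_simp
        linear_combination d ^ (i + 1) * hc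
      · intro i _ hi
        rw [Ring.choose_natCast, Nat.choose_eq_zero_of_lt (by simpa [Nat.lt_succ_iff] using hi)]
        simp
    rw [he, sub_self]
    exact lv_zero _

/-! ### Taylor series -/

/-- power series of `(a + sX)^e` -/
def bser (a s : ℂ) (e : ℤ) : PowerSeries ℂ :=
  PowerSeries.mk fun i => ((Ring.choose e i : ℤ) : ℂ) * a ^ (e - i) * s ^ i

/-- the linear series `a + sX` -/
def lser (a s : ℂ) : PowerSeries ℂ := PowerSeries.C a + PowerSeries.C s * PowerSeries.X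

lemma bser_succ {a : ℂ} (ha : a ≠ 0) (s : ℂ) (e : ℤ) : bser a s (e + 1) = lser a s * bser a s e := by
  ext i
  rw [lser, add_mul, map_add, mul_assoc, PowerSeries.coeff_C_mul, PowerSeries.coeff_C_mul]
  rcases i with _ | i
  · simp only [bser, PowerSeries.coeff_mk, Ring.choose_zero_right, PowerSeries.coeff_zero_X_mul,
      mul_zero, add_zero, Nat.cast_zero, sub_zero, pow_zero, zpow_add_one₀ ha]
    push_cast; ring
  · simp only [bser, PowerSeries.coeff_mk, PowerSeries.coeff_succ_X_mul, Ring.choose_succ_succ]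
    rw [show e + 1 - ((i + 1 : ℕ) : ℤ) = e - i by push_cast; ring,
      show e - ((i + 1 : ℕ) : ℤ) = e - i - 1 by push_cast; ring, zpow_sub_one₀ ha (e - i)]
    push_cast
    field_simp
    ring

lemma bser_zero (a s : ℂ) : bser a s 0 = 1 := by
  ext i
  rcases i with _ | i
  · simp [bser, Ring.choose_zero_right]
  · simp [bser, Ring.choose_zero_succ, PowerSeries.coeff_one]

lemma bser_add {a : ℂ} (ha : a ≠ 0) (s : ℂ) (e : ℤ) (K : ℕ) :
    bser a s (e + K) = lser a s ^ K * bser a s e := by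
  induction K with
  | zero => simp
  | succ K ih =>
    rw [show e + ((K + 1 : ℕ) : ℤ) = e + (K : ℤ) + 1 by push_cast; ring, bser_succ ha, ih]
    ring

lemma bser_natCast {a : ℂ} (ha : a ≠ 0) (s : ℂ) (K : ℕ) : bser a s (K : ℤ) = lser a s ^ K := by
  simpa [bser_zero] using bser_add ha s 0 K

/-- `zb - 5` -/
def au : ℂ := -6 - 2 * Complex.I

/-- `-zb - 5` -/
def av : ℂ := -4 + 2 * Complex.I

lemma au_ne : au ≠ 0 := by intro h; simpa [au] using congrArg Complex.re h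

lemma av_ne : av ≠ 0 := by intro h; simpa [av] using congrArg Complex.re h

/-- Taylor series of the integrand at `zb` -/
def tser (γ : ℤ →₀ ℚ) : PowerSeries ℂ :=
  γ.sum fun e c => PowerSeries.C (c : ℂ) * (bser au 1 e + bser av (-1) e)

/-- `z^2-25` at `zb + X` -/
def wPoly : ℂ[X] := (C zb + X) ^ 2 - C 25

/-- numerator at `zb + X` -/
def nPoly (n : ℕ) : ℂ[X] :=
  (((C zb + X) ^ 4 + C 6 * (C zb + X) ^ 2 + C 25) ^ eA n) * (C zb + X) ^ eA n

lemma tser_identity {n : ℕ} (D : RData n) :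
    (wPoly : PowerSeries ℂ) ^ eM n * tser D.γ = (nPoly n : PowerSeries ℂ) := by
  set K : ℕ := eM n with hK
  set U : ℂ[X] := C au + X
  set V : ℂ[X] := C av - X
  have hKe : ∀ e ∈ D.γ.support, 0 ≤ e + (K : ℤ) := fun e he => by
    have := (D.supp (Finsupp.mem_support_iff.1 he)).1
    omega
  have hpoly : wPoly ^ eM n * (∑ e ∈ D.γ.support, C ((D.γ e : ℚ) : ℂ) *
      (U ^ (e + K).toNat * V ^ K + U ^ K * V ^ (e + K).toNat)) = nPoly n * (U * V) ^ K := by
    apply Polynomial.eq_of_infinite_eval_eq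
    have hfin : ({-au, av} : Set ℂ).Finite := by simp
    refine Set.Infinite.mono ?_ hfin.infinite_compl
    intro x hx
    simp only [Set.mem_compl_iff, Set.mem_insert_iff, Set.mem_singleton_iff, not_or] at hx
    have h1 : au + x ≠ 0 := fun h => hx.1 (by linear_combination h)
    have h2 : av - x ≠ 0 := fun h => hx.2 (by linear_combination -h)
    set z : ℂ := zb + x with hz
    have hzu : z - 5 = au + x := by simp [hz, au, zb]; ring
    have hzv : -z - 5 = av - x := by simp [hz, av, zb]; ring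
    have hoff : Off z := ⟨hzu ▸ h1, hzv ▸ h2⟩
    have hw : z ^ 2 - 25 ≠ 0 := by
      intro h
      rcases mul_eq_zero.1 (show (z - 5) * (-z - 5) = 0 by linear_combination -h) with h' | h'
      · exact hoff.1 h'
      · exact hoff.2 h'
    have he := D.eval z hoff
    simp only [Set.mem_setOf_eq, eval_mul, eval_pow, eval_finsetSum, eval_add, eval_sub, eval_C,
      eval_X, U, V, wPoly, nPoly]
    rw [← hz]
    have hs : evalPhi D.γ z * ((au + x) * (av - x)) ^ K = ∑ e ∈ D.γ.support, ((D.γ e : ℚ) : ℂ) *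
        ((au + x) ^ (e + K).toNat * (av - x) ^ K + (au + x) ^ K * (av - x) ^ (e + K).toNat) := by
      rw [evalPhi, Finsupp.sum, Finset.sum_mul]
      refine Finset.sum_congr rfl fun e he' => ?_
      rw [phi, hzu, hzv, ← zpow_natCast (au + x) (e + K).toNat, ← zpow_natCast (av - x) (e + K).toNat,
        Int.toNat_of_nonneg (hKe e he'), zpow_add₀ h1, zpow_add₀ h2, zpow_natCast, zpow_natCast,
        mul_pow]
      ring
    rw [← hs, ← he, R, ← mul_assoc]
    congr 1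
    field_simp
  have h := congrArg (fun P : ℂ[X] => (P : PowerSeries ℂ)) hpoly
  simp only [Polynomial.coe_mul, Polynomial.coe_pow] at h
  have hsum : ∀ f : ℤ → ℂ[X], ((∑ e ∈ D.γ.support, f e : ℂ[X]) : PowerSeries ℂ)
      = ∑ e ∈ D.γ.support, ((f e : ℂ[X]) : PowerSeries ℂ) :=
    fun f => map_sum (Polynomial.coeToPowerSeries.ringHom) f _
  rw [hsum] at h
  simp only [Polynomial.coe_mul, Polynomial.coe_pow, Polynomial.coe_add, Polynomial.coe_C] at h
  have hU : (U : PowerSeries ℂ) = lser au 1 := by simp [U, lser]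
  have hV : (V : PowerSeries ℂ) = lser av (-1) := by
    simp only [V, lser]
    rw [Polynomial.coe_sub, Polynomial.coe_C, Polynomial.coe_X]
    simp [sub_eq_add_neg]
  rw [hU, hV] at h
  have hne : (lser au 1 * lser av (-1)) ^ K ≠ 0 := by
    refine pow_ne_zero _ (mul_ne_zero ?_ ?_) <;> intro h0 <;>
      have := congrArg PowerSeries.constantCoeff h0 <;>
      simp [lser, au_ne, av_ne] at this
  refine mul_right_cancel₀ hne (Eq.trans ?_ h)
  rw [mul_assoc]
  congr 1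
  rw [tser, Finsupp.sum, Finset.sum_mul]
  refine Finset.sum_congr rfl fun e he => ?_
  rw [← bser_natCast au_ne 1 (e + K).toNat, ← bser_natCast av_ne (-1) (e + K).toNat,
    Int.toNat_of_nonneg (hKe e he), bser_add au_ne, bser_add av_ne, mul_pow]
  ring

/-- `(1+i)^3` -/
def lam : ℂ := pi2 ^ 3

/-- the unit part of `z^2-25` on the disc -/
def wUnit : O2[X] :=
  C ⟨3 - 4 * Complex.I, O2.sub_mem (natCast_mem O2 3) (O2.mul_mem (natCast_mem O2 4) o2_I)⟩
    + C ⟨-Complex.I * zb, O2.mul_mem (O2.neg_mem o2_I)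
        (O2.sub_mem (O2.neg_mem O2.one_mem) (O2.mul_mem (natCast_mem O2 2) o2_I))⟩ * X
    + C ⟨pi2, o2_pi2⟩ * X ^ 2

lemma zb_mem : zb ∈ O2 :=
  O2.sub_mem (O2.neg_mem O2.one_mem) (O2.mul_mem (natCast_mem O2 2) o2_I)

lemma wPoly_scaled : wPoly.comp (C lam * X) = C (pi2 ^ 5) * wUnit.map O2.subtype := by
  simp only [wPoly, wUnit, sub_comp, pow_comp, add_comp, C_comp, X_comp, Polynomial.map_add,
    Polynomial.map_mul, Polynomial.map_pow, map_X, map_C, Subring.coe_subtype]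
  have h0 : zb ^ 2 - 25 = pi2 ^ 5 * (3 - 4 * Complex.I) := by
    apply Complex.ext <;> simp [zb, lam, pi2, pow_succ] <;> norm_num
  have h1 : 2 * zb * lam = pi2 ^ 5 * (-Complex.I * zb) := by
    apply Complex.ext <;> simp [zb, lam, pi2, pow_succ] <;> norm_num
  have h2 : lam ^ 2 = pi2 ^ 5 * pi2 := by rw [lam]; ring
  have e0 := congrArg (C : ℂ → ℂ[X]) h0
  have e1 := congrArg (C : ℂ → ℂ[X]) h1
  have e2 := congrArg (C : ℂ → ℂ[X]) h2
  simp only [map_mul, map_pow, map_sub] at e0 e1 e2 ⊢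
  simp only [map_ofNat] at e0 e1 e2 ⊢
  linear_combination e0 + X * e1 + X ^ 2 * e2

/-- the integral part of the numerator on the disc -/
def gPoly (n : ℕ) : O2[X] :=
  ((X * (X + C ⟨Complex.I * pi2, O2.mul_mem o2_I o2_pi2⟩)) *
    (C ⟨-(1 + 2 * Complex.I), O2.neg_mem (O2.add_mem O2.one_mem (O2.mul_mem (natCast_mem O2 2) o2_I))⟩
      + C ⟨-4, O2.neg_mem (natCast_mem O2 4)⟩ * X + C ⟨pi2 ^ 2, pow_mem o2_pi2 2⟩ * X ^ 2)) ^ eA n *
    (C ⟨zb, zb_mem⟩ + C ⟨lam, pow_mem o2_pi2 3⟩ * X) ^ eA n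

lemma nPoly_scaled (n : ℕ) :
    (nPoly n).comp (C lam * X) = C (pi2 ^ (10 * eA n)) * (gPoly n).map O2.subtype := by
  simp only [nPoly, gPoly, mul_comp, pow_comp, add_comp, C_comp, X_comp, Polynomial.map_add,
    Polynomial.map_mul, Polynomial.map_pow, map_X, map_C, Subring.coe_subtype]
  rw [pow_mul, map_pow, ← mul_assoc, ← mul_pow (C (pi2 ^ 10) : ℂ[X])]
  congr 2
  have f1 : 2 * (zb + 1) * lam = pi2 ^ 6 * (Complex.I * pi2) := by
    apply Complex.ext <;> simp [zb, lam, pi2, pow_succ] <;> norm_num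
  have f0 : (zb + 1) ^ 2 + 4 = 0 := by
    simp only [zb]
    linear_combination 4 * Complex.I_mul_I
  have f2 : lam ^ 2 = pi2 ^ 6 := by rw [lam]; ring
  have g0 : (zb - 1) ^ 2 + 4 = pi2 ^ 4 * -(1 + 2 * Complex.I) := by
    apply Complex.ext <;> simp [zb, lam, pi2, pow_succ] <;> norm_num
  have g1 : 2 * (zb - 1) * lam = pi2 ^ 4 * -4 := by
    apply Complex.ext <;> simp [zb, lam, pi2, pow_succ] <;> norm_num
  have hfac : (C zb + C lam * X) ^ 4 + C 6 * (C zb + C lam * X) ^ 2 + C (25 : ℂ)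
      = (C ((zb + 1) ^ 2 + 4) + C (2 * (zb + 1) * lam) * X + C (lam ^ 2) * X ^ 2) *
        (C ((zb - 1) ^ 2 + 4) + C (2 * (zb - 1) * lam) * X + C (lam ^ 2) * X ^ 2) := by
    simp only [map_mul, map_add, map_sub, map_pow, map_one, map_ofNat]
    ring
  rw [hfac, f0, f1, g0, g1, f2]
  simp only [map_mul, map_pow, map_zero]
  ring

lemma tser_coeff {n : ℕ} (D : RData n) (i : ℕ) :
    Lv (10 * (eA n : ℤ) - 5 * eM n) (PowerSeries.coeff i (tser D.γ) * lam ^ i) := by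
  have h := congrArg (PowerSeries.rescale lam) (tser_identity D)
  have hcoe : ∀ P : ℂ[X], PowerSeries.rescale lam (P : PowerSeries ℂ) =
      ((P.comp (C lam * X) : ℂ[X]) : PowerSeries ℂ) := fun P => by
    ext k
    rw [PowerSeries.coeff_rescale, Polynomial.coeff_coe, Polynomial.coeff_coe, comp_C_mul_X_coeff,
      mul_comm]
  rw [map_mul, map_pow, hcoe, hcoe, wPoly_scaled, nPoly_scaled, Polynomial.coe_mul, Polynomial.coe_mul,
    Polynomial.coe_C, Polynomial.coe_C] at h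
  have hm : ∀ P : O2[X], ((P.map O2.subtype : ℂ[X]) : PowerSeries ℂ) =
      PowerSeries.map O2.subtype (P : PowerSeries O2) := fun P => by
    ext k
    simp
  rw [hm, hm] at h
  have hinv : ((3 : ℂ) - 4 * Complex.I)⁻¹ ∈ O2 := by
    have e : ((3 : ℂ) - 4 * Complex.I)⁻¹ = ((25 : ℕ) : ℂ)⁻¹ * (3 + 4 * Complex.I) := by
      apply inv_eq_of_mul_eq_one_right
      push_cast
      linear_combination (-16 / 25 : ℂ) * Complex.I_mul_I
    rw [e]
    exact O2.mul_mem (o2_inv_odd (by norm_num))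
      (O2.add_mem (natCast_mem O2 3) (O2.mul_mem (natCast_mem O2 4) o2_I))
  have h34 : (3 : ℂ) - 4 * Complex.I ≠ 0 := by intro h'; simpa using congrArg Complex.re h'
  let u : O2ˣ := ⟨⟨3 - 4 * Complex.I,
      O2.sub_mem (natCast_mem O2 3) (O2.mul_mem (natCast_mem O2 4) o2_I)⟩, ⟨_, hinv⟩,
    Subtype.ext (mul_inv_cancel₀ h34), Subtype.ext (inv_mul_cancel₀ h34)⟩
  set Wi : PowerSeries O2 := PowerSeries.invOfUnit (wUnit : PowerSeries O2) u
  have hWi : (wUnit : PowerSeries O2) * Wi = 1 := PowerSeries.mul_invOfUnit _ u (by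
    rw [← PowerSeries.coeff_zero_eq_constantCoeff_apply, Polynomial.coeff_coe]
    simp [wUnit, u])
  have h5 : PowerSeries.C (pi2 ^ (5 * eM n)) * PowerSeries.rescale lam (tser D.γ) =
      PowerSeries.C (pi2 ^ (10 * eA n)) *
        PowerSeries.map O2.subtype ((gPoly n : PowerSeries O2) * Wi ^ eM n) := by
    rw [map_mul, map_pow, ← mul_assoc, ← h, mul_pow, ← map_pow, ← map_pow, ← pow_mul]
    have := congrArg (PowerSeries.map O2.subtype) hWi
    rw [map_mul, map_one] at this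
    rw [show ∀ A B S E : PowerSeries ℂ, A * B * S * E = A * S * (B * E) from fun A B S E => by ring,
      map_pow (PowerSeries.map O2.subtype), ← mul_pow, this, one_pow, mul_one]
  have h6 := congrArg (PowerSeries.coeff i) h5
  rw [PowerSeries.coeff_C_mul, PowerSeries.coeff_C_mul, PowerSeries.coeff_rescale,
    PowerSeries.coeff_map, Subring.subtype_apply] at h6
  refine ⟨_, SetLike.coe_mem (PowerSeries.coeff i ((gPoly n : PowerSeries O2) * Wi ^ eM n)), ?_⟩
  rw [show (10 * (eA n : ℤ) - 5 * eM n) = ((10 * eA n : ℕ) : ℤ) - ((5 * eM n : ℕ) : ℤ) by push_cast; ring,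
    zpow_sub₀ pi2_ne, zpow_natCast, zpow_natCast, div_mul_eq_mul_div,
    eq_div_iff (pow_ne_zero _ pi2_ne)]
  linear_combination h6

/-! ### the residue -/

lemma numW_coeff (n j : ℕ) : Lv (10 * (eA n : ℤ) - 5 * j) (((numW n).coeff j : ℚ) : ℂ) := by
  set P : O2[X] := (X ^ 2 + C ⟨-7 * (1 - Complex.I), O2.mul_mem (O2.neg_mem (natCast_mem O2 7))
      (O2.sub_mem O2.one_mem o2_I)⟩ * X + C ⟨-25 * Complex.I, O2.mul_mem (O2.neg_mem (natCast_mem O2 25)) o2_I⟩) ^
      (4000 * n) * (C ⟨pi2 ^ 5, pow_mem o2_pi2 5⟩ * X + C ⟨25, natCast_mem O2 25⟩) ^ (2000 * n) with hP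
  have h : ((numW n).map (algebraMap ℚ ℂ)).comp (C (pi2 ^ 5) * X) =
      C (pi2 ^ (10 * eA n)) * P.map O2.subtype := by
    simp only [numW, hP, Polynomial.map_mul, Polynomial.map_pow, Polynomial.map_add, map_X, map_C,
      mul_comp, pow_comp, add_comp, X_comp, C_comp, Subring.coe_subtype, eq_ratCast]
    rw [show C (pi2 ^ (10 * eA n)) = (C (pi2 ^ 10) : ℂ[X]) ^ (4000 * n) by
      rw [← map_pow, ← pow_mul]; rfl]
    conv_rhs => rw [← mul_assoc, ← mul_pow]
    congr 2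
    · have a1 : ((56 : ℚ) : ℂ) * pi2 ^ 5 = pi2 ^ 10 * (-7 * (1 - Complex.I)) := by
        apply Complex.ext <;> simp [pi2, pow_succ] <;> norm_num
      have a0 : ((800 : ℚ) : ℂ) = pi2 ^ 10 * (-25 * Complex.I) := by
        apply Complex.ext <;> simp [pi2, pow_succ] <;> norm_num
      have e1 := congrArg (C : ℂ → ℂ[X]) a1
      have e0 := congrArg (C : ℂ → ℂ[X]) a0
      simp only [map_mul, map_pow] at e1 e0 ⊢
      linear_combination X * e1 + e0
  have := congrArg (fun q => q.coeff j) h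
  simp only [comp_C_mul_X_coeff, coeff_map, coeff_C_mul, eq_ratCast, Subring.coe_subtype] at this
  refine ⟨_, SetLike.coe_mem (P.coeff j), ?_⟩
  rw [show (10 * (eA n : ℤ) - 5 * j) = ((10 * eA n : ℕ) : ℤ) - ((5 * j : ℕ) : ℤ) by push_cast; ring,
    zpow_sub₀ pi2_ne, zpow_natCast, zpow_natCast, div_mul_eq_mul_div,
    eq_div_iff (pow_ne_zero _ pi2_ne), pow_mul]
  linear_combination this

lemma alpha_lv (n : ℕ) : Lv (10 * (eA n : ℤ) - 5 * eM n) ((alpha n : ℚ) : ℂ) := by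
  rw [alpha]
  push_cast
  refine lv_sum _ _ fun k hk => ?_
  have hk' := Finset.mem_range.1 hk
  have h5 : ((5 : ℕ) : ℂ)⁻¹ ∈ O2 := o2_inv_odd (by norm_num)
  have h25 : ((25 : ℕ) : ℂ)⁻¹ ∈ O2 := o2_inv_odd (by norm_num)
  have e : (-1 : ℂ) ^ k * ((Nat.choose (2 * k) k : ℕ) : ℂ) / (10 * 100 ^ k) =
      ((2 : ℂ)⁻¹) * ((2 : ℂ)⁻¹) ^ (2 * k) *
        ((-1) ^ k * ((Nat.choose (2 * k) k : ℕ) : ℂ) * (((5 : ℕ) : ℂ)⁻¹ * (((25 : ℕ) : ℂ)⁻¹) ^ k)) := by
    rw [show (100 : ℂ) = 2 ^ 2 * 25 by norm_num, show (10 : ℂ) = 2 * 5 by norm_num, mul_pow,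
      ← pow_mul, inv_pow, inv_pow]
    push_cast
    field_simp
  rw [e]
  have h := lv_mul (numW_coeff n (eM n - 1 - k)) (lv_mul (lv_mul lv_inv_two (lv_pow lv_inv_two (2 * k)))
    (lv_of_mem (O2.mul_mem (O2.mul_mem (pow_mem (O2.neg_mem O2.one_mem) k) (natCast_mem O2 (Nat.choose (2 * k) k)))
      (O2.mul_mem h5 (pow_mem h25 k)))))
  exact lv_mono h (by omega)

/-! ### the bound for the rational part -/

lemma gamma_lv {n : ℕ} (D : RData n) (e : ℤ) :
    Lv (-(60000 * (n : ℤ)) - 10) ((D.γ e : ℚ) : ℂ) := by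
  rw [D.coeff]
  push_cast
  refine lv_sum _ _ fun i hi => ?_
  rcases eq_or_ne (D.k i e) 0 with hk | hk
  · simp [hk]
    exact lv_zero _
  have hi' := Finset.mem_range.1 hi
  have hr := D.range i (by omega) e hk
  set t : ℤ := (i : ℤ) - 2 * eM n - e
  have ht : -(24000 * (n : ℤ)) - 4 ≤ t := by simp only [t, eM] at *; push_cast at *; omega
  have h10 : Lv (2 * min t 0) ((10 : ℂ) ^ t) := by
    obtain ⟨s, hs | hs⟩ := t.eq_nat_or_neg
    · rw [hs, zpow_natCast]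
      exact lv_mono (lv_of_mem (pow_mem (natCast_mem O2 10) s)) (by omega)
    · rw [hs, zpow_neg, zpow_natCast, ← inv_pow, show (10 : ℂ)⁻¹ = (2 : ℂ)⁻¹ * ((5 : ℕ) : ℂ)⁻¹ by norm_num]
      exact lv_mono (lv_pow (lv_mul lv_inv_two (lv_of_mem (o2_inv_odd (by norm_num)))) s) (by omega)
  obtain ⟨m, hm⟩ := shifted_coeff_int n i
  rw [hm, div_eq_mul_inv]
  push_cast
  exact lv_mono (lv_mul (lv_mul (lv_of_mem (O2.mul_mem (intCast_mem O2 m) (intCast_mem O2 (D.k i e)))) h10)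
    lv_inv_two) (by omega)

lemma lv_x (a d u : ℂ) (h : pi2 * u = d / a) (hu : u ∈ O2) : Lv 1 (d / a) :=
  ⟨u, hu, by rw [zpow_one, h]⟩

lemma bPart_lv {n : ℕ} (hn : 1 ≤ n) (D : RData n) :
    Lv (10 * (eA n : ℤ) - 5 * eM n) (bPart D.γ) := by
  set h₀ : ℤ := 10 * (eA n : ℤ) - 5 * eM n
  set N : ℕ := 200000 * n with hN
  set dl : ℂ := 4 * Complex.I with hdl
  have i5 : ((5 : ℕ) : ℂ)⁻¹ ∈ O2 := o2_inv_odd (by norm_num)
  have xu : Lv 1 (dl / au) := lv_x au dl ((-2 - Complex.I) * ((5 : ℕ) : ℂ)⁻¹) (by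
      rw [eq_div_iff au_ne]
      simp only [hdl, au, pi2]
      push_cast
      linear_combination (2 / 5 : ℂ) * (Complex.I + 6) * Complex.I_mul_I)
    (O2.mul_mem (O2.sub_mem (O2.neg_mem (natCast_mem O2 2)) o2_I) i5)
  have xv : Lv 1 (-dl / av) := lv_x av (-dl) ((1 + 3 * Complex.I) * ((5 : ℕ) : ℂ)⁻¹) (by
      rw [eq_div_iff av_ne]
      simp only [hdl, av, pi2]
      push_cast
      linear_combination (6 * Complex.I / 5 - 4 / 5 : ℂ) * Complex.I_mul_I)
    (O2.mul_mem (O2.add_mem O2.one_mem (O2.mul_mem (natCast_mem O2 3) o2_I)) i5)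
  have ai : Lv (-3) au⁻¹ := by
    have e : au⁻¹ = ((5 : ℕ) : ℂ)⁻¹ * (-3 + Complex.I) * ((2 : ℂ)⁻¹ * (2 : ℂ)⁻¹) := by
      apply inv_eq_of_mul_eq_one_right
      simp only [au]; push_cast
      linear_combination (-1 / 10 : ℂ) * Complex.I_mul_I
    rw [e]
    refine lv_mono (h := 1 + (-2 + -2)) (lv_mul ?_ (lv_mul lv_inv_two lv_inv_two)) le_rfl
    refine ⟨((5 : ℕ) : ℂ)⁻¹ * (-1 + 2 * Complex.I), O2.mul_mem i5
      (O2.add_mem (O2.neg_mem O2.one_mem) (O2.mul_mem (natCast_mem O2 2) o2_I)), ?_⟩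
    simp only [pi2, zpow_one]
    linear_combination (-2 * ((5 : ℕ) : ℂ)⁻¹) * Complex.I_mul_I
  have bi : Lv (-3) av⁻¹ := by
    have e : av⁻¹ = (2 : ℂ)⁻¹ * (((5 : ℕ) : ℂ)⁻¹ * (-2 - Complex.I)) := by
      apply inv_eq_of_mul_eq_one_right
      simp only [av]; push_cast
      linear_combination (-1 / 5 : ℂ) * Complex.I_mul_I
    rw [e]
    exact lv_mono (lv_mul lv_inv_two (lv_of_mem (O2.mul_mem i5
      (O2.sub_mem (O2.neg_mem (natCast_mem O2 2)) o2_I)))) (by norm_num)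
  have uu : (1 + dl / au)⁻¹ ∈ O2 := by
    have e : (1 + dl / au)⁻¹ = (4 + 3 * Complex.I) * ((5 : ℕ) : ℂ)⁻¹ := by
      have e0 : 1 + dl / au = (4 - 3 * Complex.I) / 5 := by
        rw [add_comm, ← eq_sub_iff_add_eq, div_eq_iff au_ne]
        simp only [hdl, au]
        apply Complex.ext <;> norm_num
      rw [e0]
      apply inv_eq_of_mul_eq_one_right
      push_cast
      linear_combination (-9 / 25 : ℂ) * Complex.I_mul_I
    rw [e]
    exact O2.mul_mem (O2.add_mem (natCast_mem O2 4) (O2.mul_mem (natCast_mem O2 3) o2_I)) i5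
  have uv : (1 + -dl / av)⁻¹ ∈ O2 := by
    have e : (1 + -dl / av)⁻¹ = (3 - 4 * Complex.I) * ((5 : ℕ) : ℂ)⁻¹ := by
      have e0 : 1 + -dl / av = (3 + 4 * Complex.I) / 5 := by
        rw [add_comm, ← eq_sub_iff_add_eq, div_eq_iff av_ne]
        simp only [hdl, av]
        apply Complex.ext <;> norm_num
      rw [e0]
      apply inv_eq_of_mul_eq_one_right
      push_cast
      linear_combination (-16 / 25 : ℂ) * Complex.I_mul_I
    rw [e]
    exact O2.mul_mem (O2.sub_mem (natCast_mem O2 3) (O2.mul_mem (natCast_mem O2 4) o2_I)) i5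
  set term : ℤ → ℂ := fun e => -Complex.I * (trunc N au dl e - trunc N av (-dl) e) with hterm
  have herr : ∀ e ∈ D.γ.support.erase (-1),
      Lv h₀ (((D.γ e : ℚ) : ℂ) * rho (e + 1) - ((D.γ e : ℚ) : ℂ) * term e) := by
    intro e he
    obtain ⟨hne, hs⟩ := Finset.mem_erase.1 he
    have hb := D.supp (Finsupp.mem_support_iff.1 hs)
    have hk : e + 1 ≠ 0 := by omega
    have hkN : e + 1 ≤ N := by simp only [hN, eM] at *; push_cast at *; omega
    have hj : -(e + 1) ≤ ((6000 * n : ℕ) : ℤ) := by simp only [eM] at *; push_cast at *; omega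
    have h1 : au + dl ≠ 0 := by intro h; simpa [au, hdl] using congrArg Complex.re h
    have h2 : av + -dl ≠ 0 := by intro h; simpa [av, hdl] using congrArg Complex.re h
    have e1 := trunc_error au_ne h1 ai xu uu hk hkN hj
    have e2 := trunc_error av_ne h2 bi xv uv hk hkN hj
    rw [add_sub_cancel_right] at e1 e2
    have he' : rho (e + 1) - term e = -Complex.I *
        ((((au + dl) ^ (e + 1) - au ^ (e + 1)) / ((e + 1 : ℤ) : ℂ) - trunc N au dl e)
        + -(((av + -dl) ^ (e + 1) - av ^ (e + 1)) / ((e + 1 : ℤ) : ℂ) - trunc N av (-dl) e)) := by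
      rw [rho, hterm, show zt - 5 = au + dl by simp [zt, au, hdl]; ring,
        show -zt - 5 = av + -dl by simp [zt, av, hdl]; ring,
        show zb - 5 = au by simp [zb, au]; ring, show -zb - 5 = av by simp [zb, av]; ring]
      ring
    rw [← mul_sub, he']
    refine lv_mono (lv_mul (gamma_lv D e) (lv_mul (lv_of_mem (O2.neg_mem o2_I)) (lv_add e1 (lv_neg e2)))) ?_
    simp only [h₀, hN, eA, eM]
    push_cast
    omega
  have htot : Lv h₀ (∑ e ∈ D.γ.support, ((D.γ e : ℚ) : ℂ) * term e) := by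
    have hsw : (∑ e ∈ D.γ.support, ((D.γ e : ℚ) : ℂ) * term e) = ∑ i ∈ Finset.range N,
        -Complex.I * (PowerSeries.coeff i (tser D.γ) * lam ^ i *
          ((lam⁻¹) ^ i * dl ^ (i + 1) * ((i + 1 : ℕ) : ℂ)⁻¹)) := by
      simp only [hterm, trunc, tser, Finsupp.sum, map_sum, Finset.sum_mul, Finset.mul_sum,
        ← Finset.sum_sub_distrib]
      rw [Finset.sum_comm]
      refine Finset.sum_congr rfl fun i _ => Finset.sum_congr rfl fun e _ => ?_
      rw [PowerSeries.coeff_C_mul, map_add, bser, bser, PowerSeries.coeff_mk, PowerSeries.coeff_mk,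
        neg_pow dl]
      have : lam ^ i * lam⁻¹ ^ i = 1 := by
        have hl0 : lam ≠ 0 := by rw [lam]; exact pow_ne_zero 3 pi2_ne
        rw [← mul_pow, mul_inv_cancel₀ hl0, one_pow]
      push_cast
      simp only [one_pow, mul_one, pow_succ (-1 : ℂ)]
      generalize lam ^ i = L at this ⊢
      generalize lam⁻¹ ^ i = L' at this ⊢
      linear_combination (Complex.I * ((D.γ e : ℚ) : ℂ) *
        (((Ring.choose e i : ℤ) : ℂ) * au ^ (e - i) + ((Ring.choose e i : ℤ) : ℂ) * av ^ (e - i) * (-1) ^ i) *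
        dl ^ (i + 1) / ((i : ℂ) + 1)) * this
    rw [hsw]
    refine lv_sum _ _ fun i _ => ?_
    have hdl4 : Lv 4 dl := by
      refine ⟨-Complex.I, O2.neg_mem o2_I, ?_⟩
      simp only [hdl, pi2, show (4 : ℤ) = ((4 : ℕ) : ℤ) from rfl, zpow_natCast]
      linear_combination (Complex.I ^ 3 + 4 * Complex.I ^ 2 + 5 * Complex.I) * Complex.I_mul_I
    have hl : Lv (-3) lam⁻¹ := by
      refine ⟨1, O2.one_mem, ?_⟩
      rw [lam, mul_one, zpow_neg, show (3 : ℤ) = ((3 : ℕ) : ℤ) from rfl, zpow_natCast]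
    have h := lv_mul (lv_of_mem (O2.neg_mem o2_I)) (lv_mul (tser_coeff D i)
      (lv_mul (lv_mul (lv_pow hl i) (lv_pow hdl4 (i + 1))) (lv_inv_nat (k := i + 1) (by omega))))
    refine lv_mono h ?_
    push_cast
    simp only [h₀]
    omega
  have hth : Lv 0 (term (-1)) := by
    have hx : ∀ a d : ℂ, a ≠ 0 → Lv 1 (d / a) → Lv 0 (trunc N a d (-1)) := by
      intro a d ha hxa
      refine lv_sum _ _ fun i _ => ?_
      have e : ((Ring.choose (-1 : ℤ) i : ℤ) : ℂ) * a ^ ((-1 : ℤ) - i) * d ^ (i + 1) / ((i : ℂ) + 1)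
          = ((Ring.choose (-1 : ℤ) i : ℤ) : ℂ) * (d / a) ^ (i + 1) * ((i + 1 : ℕ) : ℂ)⁻¹ := by
        rw [show (-1 : ℤ) - i = -((i + 1 : ℕ) : ℤ) by push_cast; ring, zpow_neg, zpow_natCast, div_pow]
        push_cast
        ring
      rw [e]
      exact lv_mono (lv_mul (lv_mul (lv_int _) (lv_pow hxa (i + 1))) (lv_inv_nat (k := i + 1) (by omega)))
        (by push_cast; omega)
    have := lv_mul (lv_of_mem (O2.neg_mem o2_I)) (lv_add (hx au dl au_ne xu) (lv_neg (hx av (-dl) av_ne xv)))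
    simpa [hterm, sub_eq_add_neg] using this
  have hmain : bPart D.γ = (∑ e ∈ D.γ.support.erase (-1),
      (((D.γ e : ℚ) : ℂ) * rho (e + 1) - ((D.γ e : ℚ) : ℂ) * term e))
      + ((∑ e ∈ D.γ.support, ((D.γ e : ℚ) : ℂ) * term e) + -(((alpha n : ℚ) : ℂ) * term (-1))) := by
    rw [Finset.sum_sub_distrib, ← bPart, ← gamma_neg_one D]
    by_cases hm : (-1 : ℤ) ∈ D.γ.support
    · rw [← Finset.add_sum_erase _ (fun e => ((D.γ e : ℚ) : ℂ) * term e) hm]; ring
    · rw [Finset.erase_eq_of_notMem hm, Finsupp.notMem_support_iff.1 hm]; simp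
  rw [hmain]
  refine lv_add (lv_sum _ _ herr) (lv_add htot (lv_neg ?_))
  simpa using lv_mul (alpha_lv n) hth

/-- rationals divisible by `(1+i)^h` are divisible by `2^E` when `2E ≤ h` -/
lemma lv_rat {h : ℤ} {q : ℚ} {E : ℕ} (hq : Lv h (q : ℂ)) (hE : 2 * (E : ℤ) ≤ h) :
    q / 2 ^ E ∈ pSub 2 := by
  apply gs_real
  have h2 : Lv (h + -2 * E) ((q : ℂ) * ((2 : ℂ)⁻¹) ^ E) := lv_mul hq (lv_pow lv_inv_two E)
  have := lv_mem h2 (by omega)
  push_cast
  rwa [div_eq_mul_inv, ← inv_pow]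

lemma bPart_two {n : ℕ} (hn : 1 ≤ n) (D : RData n) {b : ℚ} (hb : bPart D.γ = (b : ℂ)) :
    b / 2 ^ twoExp n ∈ pSub 2 := by
  refine lv_rat (hb ▸ bPart_lv hn D) ?_
  simp only [twoExp, eA, eM]
  omega

lemma alpha_two {n : ℕ} (hn : 1 ≤ n) : alpha n / 2 ^ (twoExp n + 1) ∈ pSub 2 := by
  refine lv_rat (alpha_lv n) ?_
  simp only [twoExp, eA, eM]
  omega

end

end Vale.Agent.P021.Arith
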