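import Vale.Agent.P021.Defs

/-!
Partial fractions in the variables `u = z-5`, `v = -z-5` and the segment integrals of their powers.
-/

namespace Vale.Agent.P021.Arith

open Polynomial

noncomputable section

/-- integral over the segment, divided by `i` -/
def J (f : ℂ → ℂ) : ℂ := ∫ y in (-2 : ℝ)..2, f (-1 + (y : ℂ) * Complex.I)

/-- upper end point -/
def zt : ℂ := -1 + 2 * Complex.I

/-- lower end point -/
def zb : ℂ := -1 - 2 * Complex.I

/-- the basis function -/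
def phi (e : ℤ) (z : ℂ) : ℂ := (z - 5) ^ e + (-z - 5) ^ e

/-- `z` avoids both poles -/
def Off (z : ℂ) : Prop := z - 5 ≠ 0 ∧ -z - 5 ≠ 0

lemma off_neg {z : ℂ} (h : Off z) : Off (-z) := by
  refine ⟨h.2, ?_⟩
  simpa using h.1

lemma off_seg (y : ℝ) : Off (-1 + (y : ℂ) * Complex.I) := by
  constructor <;> intro h <;> have := congrArg Complex.re h <;> norm_num at this

lemma seg_top : (-1 : ℂ) + ((2 : ℝ) : ℂ) * Complex.I = zt := by simp [zt]

lemma seg_bot : (-1 : ℂ) + ((-2 : ℝ) : ℂ) * Complex.I = zb := by simp [zb]; ring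

/-- fundamental theorem of calculus along the segment -/
lemma J_eq_of_deriv {F f : ℂ → ℂ}
    (h : ∀ y : ℝ, HasDerivAt F (f (-1 + (y : ℂ) * Complex.I)) (-1 + (y : ℂ) * Complex.I))
    (hc : Continuous fun y : ℝ => f (-1 + (y : ℂ) * Complex.I)) :
    J f = -Complex.I * (F zt - F zb) := by
  have hd : ∀ y : ℝ, HasDerivAt (fun t : ℝ => F (-1 + (t : ℂ) * Complex.I))
      (f (-1 + (y : ℂ) * Complex.I) * Complex.I) y := by
    intro y
    have h1 : HasDerivAt (fun t : ℝ => (-1 : ℂ) + (t : ℂ) * Complex.I) Complex.I y := by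
      simpa using ((Complex.ofRealCLM.hasDerivAt (x := y)).mul_const Complex.I).const_add (-1 : ℂ)
    exact (h y).comp y h1
  have := intervalIntegral.integral_eq_sub_of_hasDerivAt (a := (-2 : ℝ)) (b := 2)
    (fun y _ => hd y) ((hc.mul continuous_const).intervalIntegrable _ _)
  rw [intervalIntegral.integral_mul_const, seg_top, seg_bot] at this
  rw [J, ← this]
  linear_combination (∫ y in (-2 : ℝ)..2, f (-1 + (y : ℂ) * Complex.I)) * Complex.I_mul_I

lemma continuous_zpow_seg {g : ℝ → ℂ} (hg : Continuous g) (h0 : ∀ y, g y ≠ 0) (e : ℤ) :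
    Continuous fun y => g y ^ e :=
  hg.zpow₀ e (fun y => Or.inl (h0 y))

lemma continuous_phi_seg (e : ℤ) :
    Continuous fun y : ℝ => phi e (-1 + (y : ℂ) * Complex.I) := by
  unfold phi
  exact (continuous_zpow_seg (by fun_prop) (fun y => (off_seg y).1) e).add
    (continuous_zpow_seg (by fun_prop) (fun y => (off_seg y).2) e)

/-- the value of `J` on a basis function other than the logarithmic one, divided out -/
def rho (k : ℤ) : ℂ :=
  -Complex.I / (k : ℂ) *
    (((zt - 5) ^ k - (-zt - 5) ^ k) - ((zb - 5) ^ k - (-zb - 5) ^ k))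

lemma hasDerivAt_zpow_shift (c : ℂ) (k : ℤ) (z : ℂ) (h : z - c ≠ 0) :
    HasDerivAt (fun w : ℂ => (w - c) ^ k) ((k : ℂ) * (z - c) ^ (k - 1)) z := by
  simpa [Function.comp_def] using (hasDerivAt_zpow k (z - c) (Or.inl h)).comp z ((hasDerivAt_id z).sub_const c)

lemma hasDerivAt_zpow_refl (c : ℂ) (k : ℤ) (z : ℂ) (h : -z - c ≠ 0) :
    HasDerivAt (fun w : ℂ => (-w - c) ^ k) (-((k : ℂ) * (-z - c) ^ (k - 1))) z := by
  simpa [Function.comp_def] using
    (hasDerivAt_zpow k (-z - c) (Or.inl h)).comp z ((hasDerivAt_id z).neg.sub_const c)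

lemma J_phi {e : ℤ} (he : e ≠ -1) : J (phi e) = rho (e + 1) := by
  have hk : ((e + 1 : ℤ) : ℂ) ≠ 0 := by exact_mod_cast (by omega : e + 1 ≠ 0)
  rw [J_eq_of_deriv (F := fun w => ((w - 5) ^ (e + 1) - (-w - 5) ^ (e + 1)) / ((e + 1 : ℤ) : ℂ))]
  · unfold rho
    ring
  · intro y
    have h1 := hasDerivAt_zpow_shift 5 (e + 1) _ (off_seg y).1
    have h2 := hasDerivAt_zpow_refl 5 (e + 1) _ (off_seg y).2
    refine (((h1.sub h2).div_const ((e + 1 : ℤ) : ℂ)).congr_deriv ?_).congr_of_eventuallyEq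
      (Filter.Eventually.of_forall fun w => rfl)
    simp only [phi, add_sub_cancel_right]
    field_simp
    ring
  · exact continuous_phi_seg e

lemma log_diff :
    (Complex.log (5 - zt) - Complex.log (5 + zt)) - (Complex.log (5 - zb) - Complex.log (5 + zb))
      = -((Real.pi / 2 : ℝ) : ℂ) * Complex.I := by
  have harg : ∀ z : ℂ, 0 < z.re → z.arg = Real.arctan (z.im / z.re) := by
    intro z hz
    rw [← Complex.tan_arg, Real.arctan_tan]
    · exact (Complex.abs_arg_lt_pi_div_two_iff.2 (Or.inl hz) |> abs_lt.1).1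
    · exact (Complex.abs_arg_lt_pi_div_two_iff.2 (Or.inl hz) |> abs_lt.1).2
  have h1 : Real.arctan (1 / 2) + Real.arctan (1 / 3) = Real.pi / 4 := by
    rw [Real.arctan_add (by norm_num)]
    norm_num
  have e1 : 5 - zb = (starRingEnd ℂ) (5 - zt) := by
    simp [zt, zb, Complex.ext_iff]
  have e2 : 5 + zb = (starRingEnd ℂ) (5 + zt) := by
    simp [zt, zb, Complex.ext_iff]
  have p1 : (5 - zt).re = 6 ∧ (5 - zt).im = -2 := by simp [zt]; norm_num
  have p2 : (5 + zt).re = 4 ∧ (5 + zt).im = 2 := by simp [zt]; norm_num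
  have a1 := harg (5 - zt) (by rw [p1.1]; norm_num)
  have a2 := harg (5 + zt) (by rw [p2.1]; norm_num)
  rw [p1.1, p1.2] at a1
  rw [p2.1, p2.2] at a2
  norm_num [Real.arctan_neg] at a1 a2
  have n1 : (5 - zt).arg ≠ Real.pi := by
    intro h
    have := Complex.arg_eq_pi_iff.1 h
    rw [p1.1] at this
    norm_num at this
  have n2 : (5 + zt).arg ≠ Real.pi := by
    intro h
    have := Complex.arg_eq_pi_iff.1 h
    rw [p2.1] at this
    norm_num at this
  rw [e1, e2, Complex.log_conj _ n1, Complex.log_conj _ n2]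
  apply Complex.ext
  · simp
  · simp [Complex.log_im, a1, a2]
    linarith

lemma J_phi_neg_one : J (phi (-1)) = -((Real.pi / 2 : ℝ) : ℂ) := by
  rw [J_eq_of_deriv (F := fun w => Complex.log (5 - w) - Complex.log (5 + w))]
  · rw [log_diff]
    linear_combination ((Real.pi / 2 : ℝ) : ℂ) * Complex.I_mul_I
  · intro y
    set z : ℂ := -1 + (y : ℂ) * Complex.I with hz
    have hs1 : (5 - z) ∈ Complex.slitPlane := Or.inl (by simp [hz]; norm_num)
    have hs2 : (5 + z) ∈ Complex.slitPlane := Or.inl (by simp [hz])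
    have h1 := (Complex.hasDerivAt_log hs1).comp z ((hasDerivAt_id z).const_sub 5)
    have h2 := (Complex.hasDerivAt_log hs2).comp z ((hasDerivAt_id z).const_add 5)
    refine (h1.sub h2).congr_deriv ?_ |>.congr_of_eventuallyEq (Filter.Eventually.of_forall fun w => rfl)
    have o1 := (off_seg y).1
    have o2 := (off_seg y).2
    rw [← hz] at o1 o2
    have o3 : 5 - z ≠ 0 := fun h => o1 (by linear_combination -h)
    have o4 : 5 + z ≠ 0 := fun h => o2 (by linear_combination -h)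
    simp only [phi, zpow_neg_one]
    field_simp
    ring
  · exact continuous_phi_seg (-1)

/-! ### sums of powers -/

/-- evaluation of a finitely supported family -/
def ev (α : ℤ →₀ ℚ) (u : ℂ) : ℂ := α.sum fun e c => (c : ℂ) * u ^ e

lemma ev_add (α β : ℤ →₀ ℚ) (u : ℂ) : ev (α + β) u = ev α u + ev β u := by
  unfold ev
  rw [Finsupp.sum_add_index'] <;> intros <;> simp [add_mul]

lemma ev_smul (c : ℚ) (α : ℤ →₀ ℚ) (u : ℂ) : ev (c • α) u = (c : ℂ) * ev α u := by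
  unfold ev
  rw [Finsupp.sum_smul_index' (by simp), Finsupp.mul_sum]
  simp [mul_assoc]

lemma ev_single (e : ℤ) (c : ℚ) (u : ℂ) : ev (Finsupp.single e c) u = (c : ℂ) * u ^ e := by
  simp [ev]

/-- `evalPhi γ z = ∑ γ e * phi e z` -/
def evalPhi (γ : ℤ →₀ ℚ) (z : ℂ) : ℂ := γ.sum fun e c => (c : ℂ) * phi e z

lemma evalPhi_eq (γ : ℤ →₀ ℚ) (z : ℂ) : evalPhi γ z = ev γ (z - 5) + ev γ (-z - 5) := by
  simp only [evalPhi, ev, Finsupp.sum, phi, mul_add, Finset.sum_add_distrib]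

/-- integer multiples of the right powers of `10`, in the right range -/
def Wt (t lo hi : ℤ) (α : ℤ →₀ ℚ) : Prop :=
  ∀ e, ∃ k : ℤ, α e = (k : ℚ) * 10 ^ (t - e) ∧ (k ≠ 0 → lo ≤ e ∧ e ≤ hi)

lemma wt_zero (t lo hi : ℤ) : Wt t lo hi 0 := fun e => ⟨0, by simp, by simp⟩

lemma wt_add {t lo hi : ℤ} {α β : ℤ →₀ ℚ} (ha : Wt t lo hi α) (hb : Wt t lo hi β) :
    Wt t lo hi (α + β) := by
  intro e
  obtain ⟨k, hk, hk'⟩ := ha e
  obtain ⟨l, hl, hl'⟩ := hb e
  refine ⟨k + l, by simp [hk, hl]; ring, fun h => ?_⟩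
  rcases ne_or_eq k 0 with h0 | h0
  · exact hk' h0
  · exact hl' (by simpa [h0] using h)

lemma wt_smul_tenth {t lo hi : ℤ} {α : ℤ →₀ ℚ} (ha : Wt (t + 1) lo hi α) :
    Wt t lo hi ((-1 / 10 : ℚ) • α) := by
  intro e
  obtain ⟨k, hk, hk'⟩ := ha e
  refine ⟨-k, ?_, fun h => hk' (by simpa using h)⟩
  rw [Finsupp.smul_apply, hk, smul_eq_mul, show t + 1 - e = (t - e) + 1 by ring,
    zpow_add₀ (by norm_num : (10 : ℚ) ≠ 0)]
  push_cast
  field_simp

lemma wt_mono {t lo hi lo' hi' : ℤ} {α : ℤ →₀ ℚ} (ha : Wt t lo hi α) (h1 : lo' ≤ lo)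
    (h2 : hi ≤ hi') : Wt t lo' hi' α := by
  intro e
  obtain ⟨k, hk, hk'⟩ := ha e
  exact ⟨k, hk, fun h => ⟨h1.trans (hk' h).1, (hk' h).2.trans h2⟩⟩

lemma wt_sum {ι : Type*} (s : Finset ι) {t lo hi : ℤ} (α : ι → ℤ →₀ ℚ)
    (h : ∀ i ∈ s, Wt t lo hi (α i)) : Wt t lo hi (∑ i ∈ s, α i) := by
  classical
  induction s using Finset.induction_on with
  | empty => simpa using wt_zero t lo hi
  | insert a s ha ih =>
    rw [Finset.sum_insert ha]
    exact wt_add (h a (Finset.mem_insert_self a s))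
      (ih fun i hi => h i (Finset.mem_insert_of_mem hi))

lemma ev_sum {ι : Type*} (s : Finset ι) (α : ι → ℤ →₀ ℚ) (u : ℂ) :
    ev (∑ i ∈ s, α i) u = ∑ i ∈ s, ev (α i) u := by
  classical
  induction s using Finset.induction_on with
  | empty => simp [ev]
  | insert a s ha ih => rw [Finset.sum_insert ha, Finset.sum_insert ha, ev_add, ih]

/-- one exponent nonnegative: binomial expansion -/
lemma pair_nonneg (a : ℕ) (e : ℤ) :
    ∃ β : ℤ →₀ ℚ, Wt ((a : ℤ) + e) e ((a : ℤ) + e) β ∧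
      ∀ u v : ℂ, v ≠ 0 → u + v = -10 → u ^ a * v ^ e = ev β v := by
  refine ⟨∑ k ∈ Finset.range (a + 1),
    Finsupp.single ((k : ℤ) + e) ((-1) ^ a * (a.choose k : ℚ) * 10 ^ (a - k)), ?_, ?_⟩
  · refine wt_sum _ _ fun k hk => ?_
    have hka : k ≤ a := by simpa using Finset.mem_range_succ_iff.1 hk
    intro e'
    by_cases h : (k : ℤ) + e = e'
    · refine ⟨(-1) ^ a * (a.choose k : ℤ), ?_, fun _ => by omega⟩
      rw [← h, Finsupp.single_eq_same, show ((a : ℤ) + e - ((k : ℤ) + e)) = ((a - k : ℕ) : ℤ) by omega,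
        zpow_natCast]
      push_cast
      ring
    · exact ⟨0, by simp [Finsupp.single_eq_of_ne' h], by simp⟩
  · intro u v hv huv
    rw [ev_sum, show u = (-1) * (v + 10) by linear_combination huv, mul_pow, add_pow,
      Finset.mul_sum, Finset.sum_mul]
    refine Finset.sum_congr rfl fun k _ => ?_
    rw [ev_single, zpow_add₀ hv, zpow_natCast]
    push_cast
    ring

/-- the partial fraction lemma -/
lemma pair (e₁ e₂ : ℤ) :
    ∃ α β : ℤ →₀ ℚ, Wt (e₁ + e₂) (min e₁ e₂) (max (e₁ + e₂) (-1)) α ∧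
      Wt (e₁ + e₂) (min e₁ e₂) (max (e₁ + e₂) (-1)) β ∧
      ∀ u v : ℂ, u ≠ 0 → v ≠ 0 → u + v = -10 → u ^ e₁ * v ^ e₂ = ev α u + ev β v := by
  by_cases h1 : 0 ≤ e₁
  · obtain ⟨a, rfl⟩ := Int.eq_ofNat_of_zero_le h1
    obtain ⟨β, hb, hev⟩ := pair_nonneg a e₂
    refine ⟨0, β, wt_zero _ _ _, wt_mono hb (min_le_right _ _) (le_max_left _ _), ?_⟩
    intro u v _ hv huv
    rw [zpow_natCast, hev u v hv huv]
    simp [ev]
  by_cases h2 : 0 ≤ e₂
  · obtain ⟨b, rfl⟩ := Int.eq_ofNat_of_zero_le h2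
    obtain ⟨α, ha, hev⟩ := pair_nonneg b e₁
    rw [add_comm e₁]
    refine ⟨α, 0, wt_mono ha (min_le_left _ _) (le_max_left _ _), wt_zero _ _ _, ?_⟩
    intro u v hu _ huv
    rw [zpow_natCast, mul_comm, hev v u hu (by linear_combination huv)]
    simp [ev]
  obtain ⟨α₁, β₁, ha1, hb1, h₁⟩ := pair (e₁ + 1) e₂
  obtain ⟨α₂, β₂, ha2, hb2, h₂⟩ := pair e₁ (e₂ + 1)
  have r1 : min e₁ e₂ ≤ min (e₁ + 1) e₂ := by omega
  have r2 : min e₁ e₂ ≤ min e₁ (e₂ + 1) := by omega
  have r3 : max (e₁ + 1 + e₂) (-1) ≤ max (e₁ + e₂) (-1) := by omega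
  have r4 : max (e₁ + (e₂ + 1)) (-1) ≤ max (e₁ + e₂) (-1) := by omega
  have t1 : e₁ + 1 + e₂ = e₁ + e₂ + 1 := by ring
  have t2 : e₁ + (e₂ + 1) = e₁ + e₂ + 1 := by ring
  refine ⟨(-1 / 10 : ℚ) • α₁ + (-1 / 10 : ℚ) • α₂, (-1 / 10 : ℚ) • β₁ + (-1 / 10 : ℚ) • β₂,
    wt_add (wt_smul_tenth (wt_mono (t1 ▸ ha1) r1 r3)) (wt_smul_tenth (wt_mono (t2 ▸ ha2) r2 r4)),
    wt_add (wt_smul_tenth (wt_mono (t1 ▸ hb1) r1 r3)) (wt_smul_tenth (wt_mono (t2 ▸ hb2) r2 r4)),
    ?_⟩
  intro u v hu hv huv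
  have k1 := h₁ u v hu hv huv
  have k2 := h₂ u v hu hv huv
  rw [zpow_add_one₀ hu] at k1
  rw [zpow_add_one₀ hv] at k2
  simp only [ev_add, ev_smul]
  push_cast
  linear_combination (-1 / 10 : ℂ) * k1 + (-1 / 10 : ℂ) * k2 + (u ^ e₁ * v ^ e₂ / 10) * huv
termination_by ((-e₁).toNat + (-e₂).toNat)

/-- decomposition of a symmetrised rational function -/
lemma decomp (V : ℚ[X]) (m : ℕ) :
    ∃ k : ℕ → ℤ → ℤ, ∃ γ : ℤ →₀ ℚ,
      (∀ e, γ e = ∑ i ∈ Finset.range (V.natDegree + 1),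
        (V.comp (X + C 5)).coeff i * (k i e : ℚ) * 10 ^ ((i : ℤ) - 2 * m - e)) ∧
      (∀ i, i ≤ V.natDegree → ∀ e, k i e ≠ 0 → -(m : ℤ) ≤ e ∧ e ≤ max ((i : ℤ) - 2 * m) (-1)) ∧
      ∀ z : ℂ, Off z →
        (aeval z V + aeval (-z) V) / (z ^ 2 - 25) ^ m = evalPhi γ z := by
  classical
  choose α β ha hb hev using fun i : ℕ => pair ((i : ℤ) - m) (-(m : ℤ))
  choose ka hka hka' using fun i e => ha i e
  choose kb hkb hkb' using fun i e => hb i e
  set P := V.comp (X + C 5) with hP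
  have hdeg : P.natDegree = V.natDegree := by
    rw [hP, natDegree_comp, natDegree_X_add_C, mul_one]
  refine ⟨fun i e => (-1) ^ m * (ka i e + kb i e),
    ∑ i ∈ Finset.range (V.natDegree + 1), (P.coeff i * (-1) ^ m) • (α i + β i), ?_, ?_, ?_⟩
  · intro e
    rw [Finsupp.finsetSum_apply]
    refine Finset.sum_congr rfl fun i _ => ?_
    rw [Finsupp.smul_apply, Finsupp.add_apply, hka, hkb, smul_eq_mul,
      show ((i : ℤ) - m) + -(m : ℤ) - e = (i : ℤ) - 2 * m - e by ring]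
    push_cast
    ring
  · intro i _ e hne
    rcases ne_or_eq (ka i e) 0 with h | h
    · have := hka' i e h
      omega
    · have := hkb' i e (by intro h'; exact hne (by simp [h, h']))
      omega
  · intro z hz
    have hval : ∀ w : ℂ, Off w → aeval w V / (w ^ 2 - 25) ^ m =
        ∑ i ∈ Finset.range (V.natDegree + 1),
          ((P.coeff i * (-1) ^ m : ℚ) : ℂ) * (ev (α i) (w - 5) + ev (β i) (-w - 5)) := by
      intro w hw
      have hV : aeval w V = aeval (w - 5) P := by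
        rw [hP, aeval_comp]
        simp
      rw [hV, aeval_eq_sum_range' (n := V.natDegree + 1) (by omega), Finset.sum_div]
      refine Finset.sum_congr rfl fun i _ => ?_
      rw [← hev i (w - 5) (-w - 5) hw.1 hw.2 (by ring), zpow_sub₀ hw.1, zpow_neg, zpow_natCast,
        zpow_natCast, zpow_natCast, Algebra.smul_def, eq_ratCast]
      have hw2 : (w ^ 2 - 25) = (-1) * ((w - 5) * (-w - 5)) := by ring
      rw [hw2, mul_pow, mul_pow]
      have hsq : ((-1 : ℂ) ^ m) * (-1) ^ m = 1 := by rw [← mul_pow]; norm_num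
      have hn := pow_ne_zero m hw.1
      have hn' := pow_ne_zero m hw.2
      push_cast
      field_simp
      linear_combination -((P.coeff i : ℂ) * (w - 5) ^ i) * hsq
    have e2 := hval (-z) (off_neg hz)
    rw [neg_sq, neg_neg] at e2
    rw [add_div, hval z hz, e2, evalPhi_eq, ev_sum, ev_sum, ← Finset.sum_add_distrib,
      ← Finset.sum_add_distrib]
    refine Finset.sum_congr rfl fun i _ => ?_
    simp only [ev_smul, ev_add]
    ring

/-- the rational part of `J` on `evalPhi γ` -/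
def bPart (γ : ℤ →₀ ℚ) : ℂ := ∑ e ∈ γ.support.erase (-1), (γ e : ℂ) * rho (e + 1)

lemma J_evalPhi {f : ℂ → ℂ} {γ : ℤ →₀ ℚ} (h : ∀ z, Off z → f z = evalPhi γ z) :
    J f = bPart γ - (γ (-1) : ℂ) * ((Real.pi / 2 : ℝ) : ℂ) := by
  have h1 : J f = ∑ e ∈ γ.support, (γ e : ℂ) * J (phi e) := by
    unfold J
    simp only [← intervalIntegral.integral_const_mul]
    rw [← intervalIntegral.integral_finsetSum]
    · refine intervalIntegral.integral_congr fun y _ => ?_
      simp only [h _ (off_seg y), evalPhi, Finsupp.sum]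
    · exact fun e _ => ((continuous_phi_seg e).const_smul (γ e : ℂ)).intervalIntegrable _ _
  rw [h1, bPart]
  have h3 : ∀ e ∈ γ.support.erase (-1), (γ e : ℂ) * J (phi e) = (γ e : ℂ) * rho (e + 1) :=
    fun e he => by rw [J_phi (Finset.ne_of_mem_erase he)]
  by_cases hm : (-1 : ℤ) ∈ γ.support
  · rw [← Finset.add_sum_erase _ _ hm, Finset.sum_congr rfl h3, J_phi_neg_one]
    ring
  · rw [Finset.erase_eq_of_notMem hm] at h3 ⊢
    rw [Finset.sum_congr rfl h3, Finsupp.notMem_support_iff.1 hm]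
    simp

end

end Vale.Agent.P021.Arith
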