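import Vale.Agent.P021.Arith.Sub

/-!
Integrality of the linear form at odd primes.
-/

namespace Vale.Agent.P021.Arith

open Polynomial

noncomputable section

/-- numerator with integer coefficients -/
def numZ (n : ℕ) : ℤ[X] := (X ^ 4 + C 6 * X ^ 2 + C 25) ^ eA n * X ^ eA n

lemma map_numZ (n : ℕ) : (numZ n).map (Int.castRingHom ℚ) = numP n := by
  simp [numZ, numP, Polynomial.map_pow, map_ofNat]

lemma natDegree_numP (n : ℕ) : (numP n).natDegree = 20000 * n := by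
  have h : (X ^ 4 + C (6 : ℚ) * X ^ 2 + C 25).natDegree = 4 := by compute_degree!
  have h0 : (X ^ 4 + C (6 : ℚ) * X ^ 2 + C 25) ≠ 0 := by
    intro h'
    rw [h'] at h
    simp at h
  rw [numP, natDegree_mul (pow_ne_zero _ h0) (pow_ne_zero _ X_ne_zero), natDegree_pow,
    natDegree_pow, h, natDegree_X, eA]
  ring

/-- decomposition of the integrand -/
structure RData (n : ℕ) where
  γ : ℤ →₀ ℚ
  k : ℕ → ℤ → ℤ
  coeff : ∀ e, γ e = ∑ i ∈ Finset.range (20000 * n + 1),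
    ((numP n).comp (X + C 5)).coeff i * (k i e : ℚ) * 10 ^ ((i : ℤ) - 2 * eM n - e) / 2
  range : ∀ i, i ≤ 20000 * n → ∀ e, k i e ≠ 0 → -(eM n : ℤ) ≤ e ∧ e ≤ max ((i : ℤ) - 2 * eM n) (-1)
  eval : ∀ z, Off z → R n z = evalPhi γ z

lemma exists_rData (n : ℕ) : Nonempty (RData n) := by
  obtain ⟨k, γ, h1, h2, h3⟩ := decomp (numP n) (eM n)
  rw [natDegree_numP] at h1 h2
  refine ⟨⟨(1 / 2 : ℚ) • γ, k, fun e => ?_, h2, fun z hz => ?_⟩⟩
  · rw [Finsupp.smul_apply, h1, smul_eq_mul, Finset.mul_sum]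
    exact Finset.sum_congr rfl fun i _ => by ring
  · rw [R_eq, h3 z hz, evalPhi_eq, evalPhi_eq, ev_smul, ev_smul]
    push_cast
    ring

variable {n : ℕ}

lemma RData.supp (D : RData n) {e : ℤ} (h : D.γ e ≠ 0) :
    -(eM n : ℤ) ≤ e ∧ e ≤ max ((20000 * n : ℕ) - 2 * (eM n : ℤ)) (-1) := by
  rw [D.coeff] at h
  obtain ⟨i, hi, hne⟩ := Finset.exists_ne_zero_of_sum_ne_zero h
  have hi' := Finset.mem_range.1 hi
  have hk : D.k i e ≠ 0 := by
    intro h0
    simp [h0] at hne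
  have := D.range i (by omega) e hk
  have : (i : ℤ) ≤ ((20000 * n : ℕ) : ℤ) := by omega
  omega

lemma gamma_neg_one (D : RData n) : D.γ (-1) = alpha n := alpha_eq_of_decomp n D.eval

lemma shifted_coeff_int (n i : ℕ) : ∃ m : ℤ, ((numP n).comp (X + C 5)).coeff i = (m : ℚ) := by
  refine ⟨((numZ n).comp (X + C 5)).coeff i, ?_⟩
  have h : ((numZ n).comp (X + C 5)).map (Int.castRingHom ℚ) = (numP n).comp (X + C 5) := by
    rw [Polynomial.map_comp, map_numZ]
    simp [map_ofNat]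
  rw [← h, coeff_map]
  rfl

lemma shifted_coeff_five (n i : ℕ) :
    ∃ m : ℤ, ((numP n).comp (X + C 5)).coeff i * 5 ^ i = (m : ℚ) * 5 ^ (3 * eA n) := by
  set P : ℤ[X] := (C 25 * (X + 1) ^ 4 + C 6 * (X + 1) ^ 2 + 1) ^ eA n * (X + 1) ^ eA n with hP
  refine ⟨P.coeff i, ?_⟩
  have h : ((numP n).comp (X + C 5)).comp (C 5 * X) =
      C ((5 : ℚ) ^ (3 * eA n)) * P.map (Int.castRingHom ℚ) := by
    rw [comp_assoc]
    simp only [numP, hP, mul_comp, pow_comp, add_comp, X_comp, C_comp, Polynomial.map_mul,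
      Polynomial.map_pow, Polynomial.map_add, map_X, map_C, Polynomial.map_one, map_ofNat]
    rw [show C ((5 : ℚ) ^ (3 * eA n)) = (C 25) ^ eA n * (C (5 : ℚ)) ^ eA n by
      rw [← C_pow, ← C_pow, ← C_mul, ← mul_pow, show (25 : ℚ) * 5 = 5 ^ 3 by norm_num, ← pow_mul]]
    rw [← mul_pow, ← mul_pow, ← mul_pow, ← mul_pow]
    congr 1
    simp only [map_ofNat, ofNat_comp, Polynomial.map_ofNat] at *
    ring
  have := congrArg (fun q => q.coeff i) h
  simp only [comp_C_mul_X_coeff, coeff_C_mul, coeff_map] at this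
  rw [this]
  simp [mul_comm]

/-- `k * rho k` written out -/
lemma rho_mul (k : ℤ) (hk : k ≠ 0) : (k : ℂ) * rho k = -Complex.I *
    (((zt - 5) ^ k - (-zt - 5) ^ k) - (starRingEnd ℂ) ((zt - 5) ^ k - (-zt - 5) ^ k)) := by
  have : (k : ℂ) ≠ 0 := Int.cast_ne_zero.2 hk
  simp only [rho, zt_conj, map_sub, conj_zpow, map_neg, Complex.conj_ofNat]
  field_simp

lemma gs_ofNat (S : Subring ℚ) (k : ℕ) : (k : ℂ) ∈ gs S := natCast_mem _ k

variable {p : ℕ} [Fact p.Prime]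

lemma zpow_gs {w w' : ℂ} {c : ℚ} (hw : w ∈ gs (pSub p)) (hw' : w' ∈ gs (pSub p))
    (hc : (c : ℂ) * w⁻¹ = w') (k : ℤ) :
    (c : ℂ) ^ (-k).toNat * w ^ k ∈ gs (pSub p) := by
  obtain ⟨m, rfl | rfl⟩ := k.eq_nat_or_neg
  · simpa using pow_mem hw m
  · rw [neg_neg, Int.toNat_natCast, zpow_neg, zpow_natCast, ← inv_pow, ← mul_pow, hc]
    exact pow_mem hw' m

/-- values at the end points, scaled by a power of `c` -/
lemma rho_scaled (c : ℚ) (hc : c ∈ pSub p) (h1 : c / 20 ∈ pSub p) (k : ℤ) :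
    ∃ q ∈ pSub p, (c : ℂ) ^ (-k).toNat * ((k : ℂ) * rho k) = (q : ℂ) := by
  have hI := gs_I (S := pSub p)
  have hn : ∀ m : ℤ, (m : ℂ) ∈ gs (pSub p) := fun m => intCast_mem _ m
  have hzt : zt ∈ gs (pSub p) := ⟨-1, neg_mem (one_mem _), 2, by simpa using int_mem (p := p) 2,
    by simp [zt]⟩
  have h5 : (5 : ℂ) ∈ gs (pSub p) := by simpa using hn 5
  have hu := (gs (pSub p)).sub_mem hzt h5
  have hv := (gs (pSub p)).sub_mem ((gs (pSub p)).neg_mem hzt) h5
  have h20 : ((c / 20 : ℚ) : ℂ) ∈ gs (pSub p) := gs_ratCast h1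
  have hu' : (c : ℂ) * (zt - 5)⁻¹ ∈ gs (pSub p) := by
    have hne : zt - 5 ≠ 0 := by intro h; have := congrArg Complex.re h; simp [zt] at this; norm_num at this
    have e : (c : ℂ) * (zt - 5)⁻¹ = ((c / 20 : ℚ) : ℂ) * (-3 - Complex.I) := by
      field_simp
      push_cast
      simp only [zt]
      field_simp
      linear_combination (2 * (c : ℂ)) * Complex.I_mul_I
    rw [e]
    exact mul_mem h20 (sub_mem (by simpa using hn (-3)) hI)
  have hv' : (c : ℂ) * (-zt - 5)⁻¹ ∈ gs (pSub p) := by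
    have hne : -zt - 5 ≠ 0 := by intro h; have := congrArg Complex.re h; simp [zt] at this; norm_num at this
    have e : (c : ℂ) * (-zt - 5)⁻¹ = ((c / 20 : ℚ) : ℂ) * (-4 + 2 * Complex.I) := by
      field_simp
      push_cast
      simp only [zt]
      field_simp
      linear_combination (4 * (c : ℂ)) * Complex.I_mul_I
    rw [e]
    exact mul_mem h20 (add_mem (by simpa using hn (-4)) (mul_mem (by simpa using hn 2) hI))
  have hw : (c : ℂ) ^ (-k).toNat * ((zt - 5) ^ k - (-zt - 5) ^ k) ∈ gs (pSub p) := by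
    rw [mul_sub]
    exact sub_mem (zpow_gs hu hu' rfl k) (zpow_gs hv hv' rfl k)
  rcases eq_or_ne k 0 with rfl | hk
  · exact ⟨0, zero_mem _, by simp⟩
  obtain ⟨a, ha, b, hb, hab⟩ := hw
  refine ⟨2 * b, mul_mem (by simpa using int_mem (p := p) 2) hb, ?_⟩
  rw [rho_mul k hk]
  have hconj := congrArg (starRingEnd ℂ) hab
  simp only [map_mul, map_pow, map_ratCast, map_add, Complex.conj_I] at hconj
  push_cast
  linear_combination -Complex.I * hab + Complex.I * hconj - 2 * (b : ℂ) * Complex.I_mul_I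

lemma rho_int (h : ¬ p ∣ 10) (k : ℤ) :
    ∃ q ∈ pSub p, (k : ℂ) * rho k = (q : ℂ) := by
  have h20 : (1 : ℚ) / 20 ∈ pSub p := by
    rw [one_div]
    have : ¬ p ∣ 20 := fun h' => h <| by
      have hp : p.Prime := Fact.out
      rcases hp.dvd_mul.1 (show p ∣ 2 * 10 by simpa using h') with h2 | h2
      · exact h2.trans ⟨5, rfl⟩
      · exact h2
    simpa using inv_nat_mem (p := p) this
  simpa using rho_scaled (p := p) 1 (one_mem _) h20 k

lemma gamma_mem (h : ¬ p ∣ 10) (D : RData n) (e : ℤ) : D.γ e ∈ pSub p := by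
  rw [D.coeff]
  refine sum_mem fun i _ => ?_
  obtain ⟨m, hm⟩ := shifted_coeff_int n i
  rw [hm, div_eq_mul_inv]
  refine mul_mem (mul_mem (mul_mem (int_mem _) (int_mem _)) (ten_zpow_mem h _)) ?_
  have : ¬ p ∣ 2 := fun h' => h (h'.trans ⟨5, rfl⟩)
  simpa using inv_nat_mem (p := p) this

/-- exponents that occur give denominators dividing the lcm -/
lemma lcm_div (D : RData n) {e : ℤ} (he : D.γ e ≠ 0) (h1 : e ≠ -1) :
    ∃ m : ℤ, (Nat.lcmUpto (8002 * n) : ℤ) = (e + 1) * m := by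
  have hs := D.supp he
  have hb : (e + 1).natAbs ∈ Finset.Icc 1 (8002 * n) := by
    simp only [Finset.mem_Icc, eM] at *
    push_cast at hs
    omega
  have h : ((e + 1).natAbs : ℤ) ∣ (Nat.lcmUpto (8002 * n) : ℤ) :=
    Int.natCast_dvd_natCast.2 (Finset.dvd_lcm (f := id) hb)
  rw [Int.natAbs_dvd] at h
  exact h

/-- the rational part, times the lcm, at primes other than `2` and `5` -/
lemma lcm_bPart_mem (h : ¬ p ∣ 10) (D : RData n) :
    ∃ q ∈ pSub p, (Nat.lcmUpto (8002 * n) : ℂ) * bPart D.γ = (q : ℂ) := by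
  rw [bPart, Finset.mul_sum]
  refine Finset.sum_induction _ (fun x => ∃ q ∈ pSub p, x = (q : ℂ)) ?_ ⟨0, zero_mem _, by simp⟩ ?_
  · rintro _ _ ⟨a, ha, rfl⟩ ⟨b, hb, rfl⟩
    exact ⟨a + b, add_mem ha hb, by simp⟩
  · intro e he
    obtain ⟨hne, hs⟩ := Finset.mem_erase.1 he
    obtain ⟨m, hm⟩ := lcm_div D (Finsupp.mem_support_iff.1 hs) hne
    obtain ⟨q, hq, hq'⟩ := rho_int h (e + 1)
    refine ⟨(m : ℚ) * D.γ e * q, mul_mem (mul_mem (int_mem m) (gamma_mem h D e)) hq, ?_⟩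
    have hm' : (Nat.lcmUpto (8002 * n) : ℂ) = ((e + 1 : ℤ) : ℂ) * (m : ℂ) := by exact_mod_cast hm
    rw [hm']
    push_cast at hq' ⊢
    linear_combination (m : ℂ) * (D.γ e : ℂ) * hq'

lemma gamma_five [Fact (Nat.Prime 5)] (hn : 1 ≤ n) (D : RData n) (e : ℤ) :
    D.γ e ∈ pSub 5 ∧ (e ≤ -1 → D.γ e / 5 ^ (-(e + 1)).toNat ∈ pSub 5) := by
  have h2 : (2 : ℚ)⁻¹ ∈ pSub 5 := by simpa using inv_nat_mem (p := 5) (k := 2) (by norm_num)
  have hterm : ∀ i ∈ Finset.range (20000 * n + 1),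
      ((numP n).comp (X + C 5)).coeff i * (D.k i e : ℚ) * 10 ^ ((i : ℤ) - 2 * eM n - e) / 2 ∈ pSub 5 ∧
      (e ≤ -1 → ((numP n).comp (X + C 5)).coeff i * (D.k i e : ℚ) *
        10 ^ ((i : ℤ) - 2 * eM n - e) / 2 / 5 ^ (-(e + 1)).toNat ∈ pSub 5) := by
    intro i hi
    rcases eq_or_ne (D.k i e) 0 with hk | hk
    · simp [hk]
    have hr := D.range i (by have := Finset.mem_range.1 hi; omega) e hk
    set t : ℤ := (i : ℤ) - 2 * eM n - e with ht
    by_cases he : 0 ≤ e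
    · refine ⟨?_, fun h => absurd h (by omega)⟩
      obtain ⟨m, hm⟩ := shifted_coeff_int n i
      obtain ⟨s, hs⟩ := Int.eq_ofNat_of_zero_le (show 0 ≤ t by omega)
      rw [hm, hs, zpow_natCast, div_eq_mul_inv]
      exact mul_mem (mul_mem (mul_mem (int_mem _) (int_mem _))
        (pow_mem (by simpa using int_mem (p := 5) 10) s)) h2
    · obtain ⟨m, hm⟩ := shifted_coeff_five n i
      obtain ⟨s, hs⟩ := Int.eq_ofNat_of_zero_le
        (show 0 ≤ (3 * eA n : ℕ) - 2 * (eM n : ℤ) + 1 by simp only [eA, eM]; push_cast; omega)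
      set j : ℕ := (-(e + 1)).toNat with hj
      have hj' : (j : ℤ) = -(e + 1) := by omega
      have hcoef : ((numP n).comp (X + C 5)).coeff i * (D.k i e : ℚ) * 10 ^ t / 2 / 5 ^ j =
          (m : ℚ) * (D.k i e : ℚ) * 2 ^ t * 2⁻¹ * 5 ^ s := by
        have hc : ((numP n).comp (X + C 5)).coeff i =
            (m : ℚ) * 5 ^ ((3 * eA n : ℕ) : ℤ) / 5 ^ ((i : ℕ) : ℤ) := by
          rw [zpow_natCast, zpow_natCast, eq_div_iff (pow_ne_zero _ (by norm_num))]
          exact hm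
        have h5 : (5 : ℚ) ^ ((3 * eA n : ℕ) : ℤ) / 5 ^ ((i : ℕ) : ℤ) * 5 ^ t / 5 ^ (j : ℤ)
            = 5 ^ (s : ℤ) := by
          rw [← zpow_sub₀ (by norm_num : (5 : ℚ) ≠ 0), ← zpow_add₀ (by norm_num : (5 : ℚ) ≠ 0),
            ← zpow_sub₀ (by norm_num : (5 : ℚ) ≠ 0)]
          congr 1
          omega
        rw [hc, show (10 : ℚ) = 2 * 5 by norm_num, mul_zpow, ← zpow_natCast (5 : ℚ) j,
          ← zpow_natCast (5 : ℚ) s, ← h5]
        ring
      have h2t : (2 : ℚ) ^ t ∈ pSub 5 := by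
        obtain ⟨u, hu | hu⟩ := t.eq_nat_or_neg
        · rw [hu, zpow_natCast]
          exact pow_mem (by simpa using int_mem (p := 5) 2) u
        · rw [hu, zpow_neg, zpow_natCast, ← inv_pow]
          exact pow_mem h2 u
      have h5' : (5 : ℚ) ∈ pSub 5 := by simpa using int_mem (p := 5) 5
      have key : ((numP n).comp (X + C 5)).coeff i * (D.k i e : ℚ) * 10 ^ t / 2 / 5 ^ j ∈ pSub 5 := by
        rw [hcoef]
        exact mul_mem (mul_mem (mul_mem (mul_mem (int_mem _) (int_mem _)) h2t) h2) (pow_mem h5' s)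
      refine ⟨?_, fun _ => key⟩
      have := mul_mem key (pow_mem h5' j)
      rwa [div_mul_cancel₀ _ (pow_ne_zero _ (by norm_num : (5 : ℚ) ≠ 0))] at this
  constructor
  · rw [D.coeff]
    exact sum_mem fun i hi => (hterm i hi).1
  · intro he
    rw [D.coeff, Finset.sum_div]
    exact sum_mem fun i hi => (hterm i hi).2 he

/-- the rational part, times the lcm, at `5` -/
lemma lcm_bPart_five [Fact (Nat.Prime 5)] (hn : 1 ≤ n) (D : RData n) :
    ∃ q ∈ pSub 5, (Nat.lcmUpto (8002 * n) : ℂ) * bPart D.γ = (q : ℂ) := by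
  rw [bPart, Finset.mul_sum]
  refine Finset.sum_induction _ (fun x => ∃ q ∈ pSub 5, x = (q : ℂ)) ?_ ⟨0, zero_mem _, by simp⟩ ?_
  · rintro _ _ ⟨a, ha, rfl⟩ ⟨b, hb, rfl⟩
    exact ⟨a + b, add_mem ha hb, by simp⟩
  · intro e he
    obtain ⟨hne, hs⟩ := Finset.mem_erase.1 he
    obtain ⟨m, hm⟩ := lcm_div D (Finsupp.mem_support_iff.1 hs) hne
    obtain ⟨q, hq, hq'⟩ := rho_scaled (p := 5) 5 (by simpa using int_mem (p := 5) 5)
      (by
        rw [show (5 : ℚ) / 20 = ((4 : ℕ) : ℚ)⁻¹ by norm_num]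
        exact inv_nat_mem (by norm_num)) (e + 1)
    set j : ℕ := (-(e + 1)).toNat with hj
    have hg : D.γ e / 5 ^ j ∈ pSub 5 := by
      rcases le_or_gt e (-1) with h | h
      · exact (gamma_five hn D e).2 h
      · rw [show j = 0 by omega, pow_zero, div_one]
        exact (gamma_five hn D e).1
    refine ⟨(m : ℚ) * (D.γ e / 5 ^ j) * q, mul_mem (mul_mem (int_mem m) hg) hq, ?_⟩
    have hm' : (Nat.lcmUpto (8002 * n) : ℂ) = ((e + 1 : ℤ) : ℂ) * (m : ℂ) := by exact_mod_cast hm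
    rw [hm']
    push_cast at hq' ⊢
    field_simp
    linear_combination (m : ℂ) * (D.γ e : ℂ) * hq'

end

end Vale.Agent.P021.Arith
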