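import Vale.Agent.P021.Arith.Basic

/-!
The coefficient of `π` in the integral is `-alpha n / 2`.
-/

namespace Vale.Agent.P021.Arith

open Polynomial

noncomputable section

/-- numerator of `R n` -/
def numP (n : ℕ) : ℚ[X] := (X ^ 4 + C 6 * X ^ 2 + C 25) ^ eA n * X ^ eA n

lemma R_eq (n : ℕ) (z : ℂ) :
    R n z = (aeval z (numP n) + aeval (-z) (numP n)) / (z ^ 2 - 25) ^ eM n / 2 := by
  have hev : (-z) ^ eA n = z ^ eA n := by
    rw [neg_pow, eA, show 4000 * n = 2 * (2000 * n) by ring, pow_mul (-1 : ℂ)]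
    norm_num
  have h4 : (-z) ^ 4 = z ^ 4 := by ring
  have h2 : (-z) ^ 2 = z ^ 2 := by ring
  simp only [R, numP, map_mul, map_pow, map_add, aeval_X, aeval_C, hev, h4, h2]
  simp only [eq_ratCast]
  push_cast
  ring

lemma sq_ne (y : ℝ) : ((-1 : ℂ) + (y : ℂ) * Complex.I) ^ 2 - 25 ≠ 0 := by
  intro h
  have := off_seg y
  have h' : ((-1 : ℂ) + (y : ℂ) * Complex.I - 5) * (-((-1 : ℂ) + (y : ℂ) * Complex.I) - 5) = 0 := by
    linear_combination -h
  rcases mul_eq_zero.1 h' with h'' | h''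
  · exact this.1 h''
  · exact this.2 h''

lemma continuous_R (n : ℕ) : Continuous fun y : ℝ => R n (-1 + (y : ℂ) * Complex.I) := by
  unfold R
  exact Continuous.div (by fun_prop) (by fun_prop) fun y => pow_ne_zero _ (sq_ne y)

lemma I_eq (n : ℕ) : I n = (J (R n)).re := by
  rw [I, J, ← Complex.reCLM_apply, ← Complex.reCLM.intervalIntegral_comp_comm
    ((continuous_R n).intervalIntegrable _ _)]
  rfl

/-- `x` is rational -/
def IsRatC (x : ℂ) : Prop := ∃ q : ℚ, x = (q : ℂ)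

lemma zt_conj : zb = (starRingEnd ℂ) zt := by
  simp [zt, zb, Complex.ext_iff]

/-- the imaginary part of a Gaussian rational is rational -/
lemma isRatC_sub_conj {w : ℂ} (h : ∃ a b : ℚ, w = (a : ℂ) + (b : ℂ) * Complex.I) :
    IsRatC (-Complex.I * (w - (starRingEnd ℂ) w)) := by
  obtain ⟨a, b, rfl⟩ := h
  refine ⟨2 * b, ?_⟩
  simp only [map_add, map_mul, Complex.conj_I, map_ratCast]
  push_cast
  linear_combination -(2 * (b : ℂ)) * Complex.I_mul_I

/-- the Gaussian rationals -/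
def gaussQ : Subfield ℂ where
  carrier := {w | ∃ a b : ℚ, w = (a : ℂ) + (b : ℂ) * Complex.I}
  mul_mem' := by
    rintro _ _ ⟨a, b, rfl⟩ ⟨c, d, rfl⟩
    refine ⟨a * c - b * d, a * d + b * c, ?_⟩
    push_cast
    linear_combination (b : ℂ) * d * Complex.I_mul_I
  one_mem' := ⟨1, 0, by simp⟩
  add_mem' := by
    rintro _ _ ⟨a, b, rfl⟩ ⟨c, d, rfl⟩
    exact ⟨a + c, b + d, by push_cast; ring⟩
  zero_mem' := ⟨0, 0, by simp⟩
  neg_mem' := by
    rintro _ ⟨a, b, rfl⟩
    exact ⟨-a, -b, by push_cast; ring⟩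
  inv_mem' := by
    rintro _ ⟨a, b, rfl⟩
    refine ⟨a / (a ^ 2 + b ^ 2), -b / (a ^ 2 + b ^ 2), ?_⟩
    by_cases h : a = 0 ∧ b = 0
    · simp [h.1, h.2]
    have hne : (a : ℚ) ^ 2 + b ^ 2 ≠ 0 := by
      intro h0
      exact h ⟨by nlinarith [sq_nonneg a, sq_nonneg b], by nlinarith [sq_nonneg a, sq_nonneg b]⟩
    have hneC : ((a : ℂ)) ^ 2 + (b : ℂ) ^ 2 ≠ 0 := by exact_mod_cast hne
    apply inv_eq_of_mul_eq_one_right
    push_cast
    field_simp
    linear_combination -(b : ℂ) ^ 2 * Complex.I_mul_I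

lemma zt_mem : zt ∈ gaussQ := ⟨-1, 2, by simp [zt]⟩

lemma five_mem : (5 : ℂ) ∈ gaussQ := ⟨5, 0, by simp⟩

lemma conj_zpow (w : ℂ) (k : ℤ) : (starRingEnd ℂ) (w ^ k) = (starRingEnd ℂ) w ^ k :=
  map_zpow₀ _ w k

lemma isRatC_rho (k : ℤ) : IsRatC (rho k) := by
  have h : rho k = -Complex.I * (((zt - 5) ^ k - (-zt - 5) ^ k) / (k : ℂ) -
      (starRingEnd ℂ) (((zt - 5) ^ k - (-zt - 5) ^ k) / (k : ℂ))) := by
    simp only [rho, zt_conj, map_div₀, map_sub, conj_zpow, map_neg, map_intCast, Complex.conj_ofNat]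
    ring
  rw [h]
  refine isRatC_sub_conj (gaussQ.div_mem (gaussQ.sub_mem ?_ ?_) (intCast_mem gaussQ k))
  · exact zpow_mem (gaussQ.sub_mem zt_mem five_mem) k
  · exact zpow_mem (gaussQ.sub_mem (gaussQ.neg_mem zt_mem) five_mem) k

lemma isRatC_bPart (γ : ℤ →₀ ℚ) : IsRatC (bPart γ) := by
  unfold bPart
  refine Finset.sum_induction _ _ ?_ ⟨0, by simp⟩ fun e _ => ?_
  · rintro _ _ ⟨a, rfl⟩ ⟨b, rfl⟩
    exact ⟨a + b, by simp⟩
  · obtain ⟨q, hq⟩ := isRatC_rho (e + 1)
    exact ⟨γ e * q, by simp [hq]⟩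

/-- `x = b - (π/2) a` -/
def Form (x : ℂ) (a : ℚ) : Prop := ∃ b : ℚ, x = (b : ℂ) - (a : ℂ) * ((Real.pi / 2 : ℝ) : ℂ)

lemma form_unique {x : ℂ} {a a' b b' : ℚ}
    (h : x = (b : ℂ) - (a : ℂ) * ((Real.pi / 2 : ℝ) : ℂ))
    (h' : x = (b' : ℂ) - (a' : ℂ) * ((Real.pi / 2 : ℝ) : ℂ)) : a = a' ∧ b = b' := by
  have he : ((b : ℝ) - a * (Real.pi / 2)) = ((b' : ℝ) - a' * (Real.pi / 2)) := by
    have := h.symm.trans h'
    exact_mod_cast this
  by_cases ha : a = a'
  · subst ha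
    exact ⟨rfl, by exact_mod_cast (by linarith : (b : ℝ) = b')⟩
  · exfalso
    refine irrational_pi ⟨2 * (b - b') / (a - a'), ?_⟩
    have : ((a : ℝ) - a') ≠ 0 := sub_ne_zero.2 (by exact_mod_cast ha)
    push_cast
    field_simp
    linarith

lemma form_of_evalPhi {f : ℂ → ℂ} {γ : ℤ →₀ ℚ} (h : ∀ z, Off z → f z = evalPhi γ z) :
    Form (J f) (γ (-1)) := by
  obtain ⟨b, hb⟩ := isRatC_bPart γ
  exact ⟨b, by rw [J_evalPhi h, hb]⟩

/-! ### powers of `w = z^2 - 25` -/

/-- residue at `5` of `w^s` -/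
def wres : ℤ → ℚ
  | Int.ofNat _ => 0
  | Int.negSucc r => (-1) ^ r * (Nat.choose (2 * r) r : ℚ) / (10 * 100 ^ r)

lemma continuous_w (s : ℤ) :
    Continuous fun y : ℝ => ((-1 + (y : ℂ) * Complex.I) ^ 2 - 25) ^ s :=
  continuous_zpow_seg (by fun_prop) sq_ne s

lemma J_w_rec (s : ℤ) :
    ∃ q : ℚ, (2 * (s : ℂ) + 1) * J (fun z => (z ^ 2 - 25) ^ s)
      + 50 * (s : ℂ) * J (fun z => (z ^ 2 - 25) ^ (s - 1)) = (q : ℂ) := by
  obtain ⟨q, hq⟩ := isRatC_sub_conj (w := zt * (zt ^ 2 - 25) ^ s)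
    (gaussQ.mul_mem zt_mem (zpow_mem (gaussQ.sub_mem (pow_mem zt_mem 2) ⟨25, 0, by simp⟩) s))
  refine ⟨q, ?_⟩
  have hJ : J (fun z => (2 * (s : ℂ) + 1) * (z ^ 2 - 25) ^ s
      + 50 * (s : ℂ) * (z ^ 2 - 25) ^ (s - 1)) = (q : ℂ) := by
    rw [J_eq_of_deriv (F := fun z => z * (z ^ 2 - 25) ^ s), ← hq]
    · simp [zt_conj, conj_zpow, Complex.conj_ofNat]
    · intro y
      set z : ℂ := -1 + (y : ℂ) * Complex.I
      have hz := sq_ne y
      have h1 := (hasDerivAt_zpow s (z ^ 2 - 25) (Or.inl hz)).comp z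
        (((hasDerivAt_id z).pow 2).sub_const 25)
      refine ((hasDerivAt_id z).mul h1).congr_deriv ?_ |>.congr_of_eventuallyEq
        (Filter.Eventually.of_forall fun w => rfl)
      simp only [id_eq, Function.comp_apply, Pi.pow_apply]
      rw [zpow_sub_one₀ hz]
      field_simp
      push_cast
      ring
    · exact (continuous_const.mul (continuous_w s)).add (continuous_const.mul (continuous_w (s - 1)))
  rw [← hJ]
  unfold J
  rw [intervalIntegral.integral_add, intervalIntegral.integral_const_mul,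
    intervalIntegral.integral_const_mul]
  · exact (continuous_const.mul (continuous_w s)).intervalIntegrable _ _
  · exact (continuous_const.mul (continuous_w (s - 1))).intervalIntegrable _ _

lemma form_w (s : ℤ) : Form (J fun z => (z ^ 2 - 25) ^ s) (wres s) := by
  induction s using Int.induction_on with
  | zero =>
    refine ⟨4, ?_⟩
    simp [J, wres]
    norm_num
  | succ i ih =>
    obtain ⟨b, hb⟩ := ih
    obtain ⟨q, hq⟩ := J_w_rec ((i : ℤ) + 1)
    rw [add_sub_cancel_right, hb] at hq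
    have hne : (2 * ((i : ℚ) + 1) + 1) ≠ 0 := by positivity
    have hneC : (2 * ((i : ℂ) + 1) + 1) ≠ 0 := by exact_mod_cast hne
    refine ⟨(q - 50 * ((i : ℚ) + 1) * b) / (2 * ((i : ℚ) + 1) + 1), ?_⟩
    have hw : wres (i : ℤ) = 0 := rfl
    have hw' : wres ((i : ℤ) + 1) = 0 := rfl
    rw [hw] at hq
    rw [hw']
    generalize (J fun z => (z ^ 2 - 25) ^ ((i : ℤ) + 1)) = Jn at hq ⊢
    push_cast at hq ⊢
    simp only [zero_mul, sub_zero] at hq ⊢
    rw [eq_div_iff hneC]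
    linear_combination hq
  | pred i ih =>
    obtain ⟨b, hb⟩ := ih
    obtain ⟨q, hq⟩ := J_w_rec (-(i : ℤ))
    rw [hb] at hq
    rcases i with _ | r
    · refine ⟨0, ?_⟩
      have hJ : (J fun z => (z ^ 2 - 25) ^ (-((0 : ℕ) : ℤ) - 1)) = (1 / 10 : ℂ) * J (phi (-1)) := by
        unfold J
        rw [← intervalIntegral.integral_const_mul]
        refine intervalIntegral.integral_congr fun y _ => ?_
        obtain ⟨o1, o2⟩ := off_seg y
        have o3 := sq_ne y
        simp only [phi, Nat.cast_zero, neg_zero, zero_sub, zpow_neg_one]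
        field_simp
        ring
      rw [hJ, J_phi_neg_one, show -((0 : ℕ) : ℤ) - 1 = Int.negSucc 0 from rfl]
      simp [wres]
    · have h1 : wres (-((r + 1 : ℕ) : ℤ)) = (-1) ^ r * (Nat.choose (2 * r) r : ℚ) / (10 * 100 ^ r) := by
        rw [show -((r + 1 : ℕ) : ℤ) = Int.negSucc r from rfl]
        rfl
      have h2 : wres (-((r + 1 : ℕ) : ℤ) - 1) =
          (-1) ^ (r + 1) * (Nat.choose (2 * (r + 1)) (r + 1) : ℚ) / (10 * 100 ^ (r + 1)) := by
        rw [show -((r + 1 : ℕ) : ℤ) - 1 = Int.negSucc (r + 1) by omega]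
        rfl
      have hc : (((r : ℚ) + 1)) * (Nat.choose (2 * (r + 1)) (r + 1) : ℚ)
          = 2 * (2 * (r : ℚ) + 1) * (Nat.choose (2 * r) r : ℚ) := by
        have := Nat.succ_mul_centralBinom_succ r
        simp only [Nat.centralBinom] at this
        exact_mod_cast this
      have hrel : 50 * ((r : ℚ) + 1) * wres (-((r + 1 : ℕ) : ℤ) - 1)
          = -(2 * (r : ℚ) + 1) * wres (-((r + 1 : ℕ) : ℤ)) := by
        rw [h1, h2, pow_succ, pow_succ]
        field_simp
        linear_combination -(50 : ℚ) * hc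
      have hne : (50 : ℂ) * ((r : ℂ) + 1) ≠ 0 := by
        exact_mod_cast (by positivity : (50 : ℚ) * ((r : ℚ) + 1) ≠ 0)
      have hrelC : 50 * ((r : ℂ) + 1) * (wres (-((r + 1 : ℕ) : ℤ) - 1) : ℂ)
          = -(2 * (r : ℂ) + 1) * (wres (-((r + 1 : ℕ) : ℤ)) : ℂ) := by exact_mod_cast hrel
      refine ⟨(q + (2 * (r : ℚ) + 1) * b) / (-(50 * ((r : ℚ) + 1))), ?_⟩
      generalize (J fun z => (z ^ 2 - 25) ^ (-((r + 1 : ℕ) : ℤ) - 1)) = Jn at hq ⊢
      generalize wres (-((r + 1 : ℕ) : ℤ)) = w0 at hq hrelC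
      generalize wres (-((r + 1 : ℕ) : ℤ) - 1) = w1 at hrelC ⊢
      push_cast at hq hrelC ⊢
      apply mul_left_cancel₀ hne
      field_simp
      linear_combination -2 * hq + (Real.pi : ℂ) * hrelC

lemma evalPhi_finite_sum (n : ℕ) (z : ℂ) :
    R n z = ∑ j ∈ Finset.range ((numW n).natDegree + 1),
      ((numW n).coeff j : ℂ) * (z ^ 2 - 25) ^ j / (z ^ 2 - 25) ^ eM n := by
  have h : aeval (z ^ 2 - 25) (numW n) = (z ^ 4 + 6 * z ^ 2 + 25) ^ eA n * z ^ eA n := by
    simp only [numW, map_mul, map_pow, map_add, aeval_X, aeval_C, eq_ratCast]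
    push_cast
    rw [show z ^ eA n = (z ^ 2) ^ (2000 * n) by rw [← pow_mul]; congr 1; simp [eA]; ring,
      show eA n = 4000 * n from rfl]
    ring
  rw [R, ← h, aeval_eq_sum_range, Finset.sum_div]
  simp [Algebra.smul_def]

/-- the coefficient of `π` -/
lemma form_R (n : ℕ) : Form (J (R n)) (alpha n) := by
  set d := (numW n).natDegree with hd
  have hJ : J (R n) = ∑ j ∈ Finset.range (d + 1), ((numW n).coeff j : ℂ) *
      J (fun z => (z ^ 2 - 25) ^ ((j : ℤ) - eM n)) := by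
    unfold J
    simp only [← intervalIntegral.integral_const_mul]
    rw [← intervalIntegral.integral_finsetSum]
    · refine intervalIntegral.integral_congr fun y _ => ?_
      simp only [evalPhi_finite_sum]
      refine Finset.sum_congr rfl fun j _ => ?_
      rw [zpow_sub₀ (sq_ne y), zpow_natCast, zpow_natCast]
      ring
    · exact fun j _ => ((continuous_w _).const_smul ((numW n).coeff j : ℂ)).intervalIntegrable _ _
  choose b hb using form_w
  refine ⟨∑ j ∈ Finset.range (d + 1), (numW n).coeff j * b ((j : ℤ) - eM n), ?_⟩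
  have ha : alpha n = ∑ j ∈ Finset.range (d + 1), (numW n).coeff j * wres ((j : ℤ) - eM n) := by
    have hzero : ∀ j, eM n ≤ j → wres ((j : ℤ) - eM n) = 0 := by
      intro j hj
      rw [show (j : ℤ) - eM n = ((j - eM n : ℕ) : ℤ) by omega]
      rfl
    calc alpha n = ∑ k ∈ Finset.range (eM n), (numW n).coeff (eM n - 1 - k) *
          ((-1) ^ k * (Nat.choose (2 * k) k : ℚ) / (10 * 100 ^ k)) := rfl
      _ = ∑ j ∈ Finset.range (eM n), (numW n).coeff j * wres ((j : ℤ) - eM n) := by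
          rw [← Finset.sum_range_reflect]
          refine Finset.sum_congr rfl fun j hj => ?_
          have hj' := Finset.mem_range.1 hj
          rw [show eM n - 1 - (eM n - 1 - j) = j by omega,
            show (j : ℤ) - eM n = Int.negSucc (eM n - 1 - j) by omega]
          rfl
      _ = ∑ j ∈ Finset.range (max (eM n) (d + 1)), (numW n).coeff j * wres ((j : ℤ) - eM n) := by
          refine Finset.sum_subset (Finset.range_mono (le_max_left _ _)) fun j _ hj => ?_
          rw [hzero j (by simpa using hj), mul_zero]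
      _ = _ := by
          refine (Finset.sum_subset (Finset.range_mono (le_max_right _ _)) fun j _ hj => ?_).symm
          rw [coeff_eq_zero_of_natDegree_lt (p := numW n) (by rw [← hd]; simpa using hj), zero_mul]
  rw [hJ, ha]
  push_cast
  rw [Finset.sum_mul, ← Finset.sum_sub_distrib]
  refine Finset.sum_congr rfl fun j _ => ?_
  rw [hb]
  push_cast
  ring

/-- a canonical decomposition of `2 R` with its residue -/
lemma alpha_eq_of_decomp (n : ℕ) {γ : ℤ →₀ ℚ}
    (h : ∀ z, Off z → R n z = evalPhi γ z) : γ (-1) = alpha n := by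
  obtain ⟨b, hb⟩ := form_R n
  obtain ⟨b', hb'⟩ := form_of_evalPhi h
  exact (form_unique hb' hb).1

end

end Vale.Agent.P021.Arith
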