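import Vale.Agent.P021.Arith.OddPrimes

/-!
Saved primes: the Cartier operator kills the form, so the prime does not enter the denominator.
-/

namespace Vale.Agent.P021.Arith

open Polynomial

noncomputable section

variable {p : ℕ} [Fact p.Prime]

/-- `(z^4+6z^2+25)` over the integers -/
def qZ : ℤ[X] := X ^ 4 + C 6 * X ^ 2 + C 25

/-- `z^2-25` over the integers -/
def wZ : ℤ[X] := X ^ 2 - C 25

lemma natDegree_qZ_le : qZ.natDegree ≤ 4 := by unfold qZ; compute_degree

lemma natDegree_wZ_le : wZ.natDegree ≤ 2 := by unfold wZ; compute_degree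

/-- the small factor -/
def smallG (a M : ℕ) : ℤ[X] := X ^ a * qZ ^ a * wZ ^ M

lemma natDegree_smallG_le (a M : ℕ) : (smallG a M).natDegree ≤ 5 * a + 2 * M := by
  refine natDegree_mul_le.trans ?_
  refine (Nat.add_le_add natDegree_mul_le natDegree_pow_le).trans ?_
  have h1 : (X ^ a : ℤ[X]).natDegree ≤ a := by simp
  have h2 : (qZ ^ a).natDegree ≤ a * 4 := natDegree_pow_le.trans (Nat.mul_le_mul_left _ natDegree_qZ_le)
  have h3 : M * wZ.natDegree ≤ M * 2 := Nat.mul_le_mul_left _ natDegree_wZ_le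
  omega

lemma smallG_coeff_even {a M i : ℕ} (ha : Odd a) (hi : Even i) : (smallG a M).coeff i = 0 := by
  have h : (smallG a M).comp (C (-1) * X) = -(smallG a M) := by
    simp only [smallG, qZ, wZ, mul_comp, pow_comp, add_comp, sub_comp, X_comp, C_comp]
    rw [show (C (-1 : ℤ) * X) = -X by simp, ha.neg_pow, neg_sq, show (-X : ℤ[X]) ^ 4 = X ^ 4 by ring]
    ring
  have := congrArg (fun q => q.coeff i) h
  simp only [comp_C_mul_X_coeff, hi.neg_one_pow, mul_one, coeff_neg] at this
  omega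

lemma expand_mul_coeff (U G : ℤ[X]) (hG : ∀ i, p ∣ i + 1 → G.coeff i = 0) {l : ℕ} (hl : p ∣ l + 1) :
    (expand ℤ p U * G).coeff l = 0 := by
  rw [coeff_mul]
  refine Finset.sum_eq_zero fun x hx => ?_
  have hp : 0 < p := (Fact.out : p.Prime).pos
  rw [coeff_expand hp]
  split_ifs with h
  · have hxl : x.1 + x.2 = l := Finset.HasAntidiagonal.mem_antidiagonal.1 hx
    rw [hG x.2 ?_, mul_zero]
    rw [← hxl, show x.1 + x.2 + 1 = x.1 + (x.2 + 1) by ring] at hl
    exact (Nat.dvd_add_right h).1 hl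
  · simp

lemma pow_eq_expand_add (U : ℤ[X]) :
    ∃ V : ℤ[X], U ^ p = expand ℤ p U + C (p : ℤ) * V ∧ V.natDegree ≤ p * U.natDegree := by
  have h : (C (p : ℤ)) ∣ U ^ p - expand ℤ p U := by
    rw [C_dvd_iff_dvd_coeff]
    intro i
    rw [← ZMod.intCast_zmod_eq_zero_iff_dvd]
    have h0 : (U ^ p - expand ℤ p U).map (Int.castRingHom (ZMod p)) = 0 := by
      rw [Polynomial.map_sub, Polynomial.map_pow, map_expand, ZMod.expand_card, sub_self]
    have h1 := congrArg (fun q => q.coeff i) h0
    simp only [coeff_map, coeff_zero] at h1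
    simpa using h1
  obtain ⟨V, hV⟩ := h
  refine ⟨V, by rw [← hV]; ring, ?_⟩
  have hp : (p : ℤ) ≠ 0 := by exact_mod_cast (Fact.out : p.Prime).ne_zero
  rw [← natDegree_C_mul (p := V) hp, ← hV]
  refine (natDegree_sub_le _ _).trans (max_le natDegree_pow_le ?_)
  rw [natDegree_expand, mul_comm]

/-- formal antiderivative -/
def antider (T : ℤ[X]) : ℚ[X] :=
  ∑ l ∈ T.support, monomial (l + 1) ((T.coeff l : ℚ) / ((l + 1 : ℕ) : ℚ))

lemma derivative_antider (T : ℤ[X]) : derivative (antider T) = T.map (Int.castRingHom ℚ) := by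
  conv_rhs => rw [T.as_sum_support, Polynomial.map_sum]
  rw [antider, derivative_sum]
  refine Finset.sum_congr rfl fun l _ => ?_
  rw [derivative_monomial, Polynomial.map_monomial, Nat.add_sub_cancel]
  congr 1
  have : ((l + 1 : ℕ) : ℚ) ≠ 0 := by positivity
  field_simp
  simp

lemma natDegree_antider_le (T : ℤ[X]) : (antider T).natDegree ≤ T.natDegree + 1 :=
  natDegree_sum_le_of_forall_le _ _ fun l hl =>
    (natDegree_monomial_le _).trans (Nat.succ_le_succ (le_natDegree_of_mem_supp l hl))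

lemma antider_coeff_mem (T : ℤ[X]) (hT : ∀ l, p ∣ l + 1 → T.coeff l = 0) (i : ℕ) :
    (antider T).coeff i ∈ pSub p := by
  rw [antider, finsetSum_coeff]
  refine sum_mem fun l hl => ?_
  rw [coeff_monomial]
  split_ifs
  · rw [div_eq_mul_inv]
    exact mul_mem (int_mem _) (inv_nat_mem fun h => mem_support_iff.1 hl (hT l h))
  · exact zero_mem _

lemma aeval_gs {P : ℚ[X]} (hP : ∀ i, P.coeff i ∈ pSub p) {w : ℂ} (hw : w ∈ gs (pSub p)) :
    aeval w P ∈ gs (pSub p) := by
  rw [aeval_eq_sum_range]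
  refine sum_mem fun i _ => ?_
  rw [Algebra.smul_def, eq_ratCast]
  exact mul_mem (gs_ratCast (hP i)) (pow_mem hw i)

lemma inv_wt_mem (h : ¬ p ∣ 10) : (zt ^ 2 - 25)⁻¹ ∈ gs (pSub p) := by
  have e : (zt ^ 2 - 25)⁻¹ = ((((200 : ℕ) : ℚ)⁻¹ : ℚ) : ℂ) * (-7 + Complex.I) := by
    apply inv_eq_of_mul_eq_one_right
    simp only [zt]
    push_cast
    linear_combination ((-32 : ℂ) / 200 + 4 * Complex.I / 200) * Complex.I_mul_I
  rw [e]
  have h200 : ¬ p ∣ 200 := fun h' => by
    have hp : p.Prime := Fact.out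
    rcases hp.dvd_mul.1 (show p ∣ 2 * (10 * 10) by simpa using h') with h2 | h2
    · exact h (h2.trans ⟨5, rfl⟩)
    · rcases hp.dvd_mul.1 h2 with h3 | h3 <;> exact h h3
  exact mul_mem (gs_ratCast (inv_nat_mem h200))
    (add_mem (by simpa using neg_mem (natCast_mem (gs (pSub p)) 7)) gs_I)

lemma p_div_mem {k : ℤ} (hk : k ≠ 0) (hlt : k.natAbs < p * p) : (p : ℚ) / (k : ℚ) ∈ pSub p := by
  by_cases h : (p : ℤ) ∣ k
  · obtain ⟨c, rfl⟩ := h
    have hc : ¬ (p : ℤ) ∣ c := by
      intro h'
      rw [Int.natAbs_mul, Int.natAbs_natCast] at hlt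
      have h1 := Int.natCast_dvd.1 h'
      have h2 : 0 < c.natAbs := Int.natAbs_pos.2 (right_ne_zero_of_mul hk)
      have h3 := Nat.le_of_dvd h2 h1
      exact absurd hlt (Nat.not_lt.2 (Nat.mul_le_mul_left p h3))
    have hp : (p : ℚ) ≠ 0 := by exact_mod_cast (Fact.out : p.Prime).ne_zero
    rw [show (p : ℚ) / (((p : ℤ) * c : ℤ) : ℚ) = 1 / (c : ℚ) by push_cast; field_simp]
    exact div_int_mem hc (one_mem _)
  · exact div_int_mem h (natCast_mem _ p)

/-- a saved prime divides neither denominator -/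
lemma saved_mem {n : ℕ} (hn : 1 ≤ n) (hS : Saved n p) (D : RData n) :
    (∃ q ∈ pSub p, bPart D.γ = (q : ℂ)) ∧ alpha n ∈ pSub p := by
  obtain ⟨-, hsq, h10, hle, f, -, hlo, hhi⟩ := hS
  have hp : p.Prime := Fact.out
  have hnd : ¬ p ∣ 10 := fun h => absurd (Nat.le_of_dvd (by norm_num) h) (by omega)
  set m := intM f with hm
  set th := intTh f with hth
  have hpQ : (0 : ℚ) < p := by exact_mod_cast hp.pos
  have hA : f * p < 4000 * n := by
    rw [intLo] at hlo
    have : (f : ℚ) * p < 4000 * n := by linarith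
    exact_mod_cast this
  have hB : 5999 * n < m * p := by
    have := hhi.trans_le (mul_le_mul_of_nonneg_right (min_le_left _ _) hpQ.le)
    have : (5999 : ℚ) * n < (m : ℚ) * p := by rw [← hm] at this; linarith
    exact_mod_cast this
  have hD : 8002 * n + 2 * (m * p) < (5 * f + th) * p := by
    have := hhi.trans_le (mul_le_mul_of_nonneg_right
      ((min_le_right _ _).trans (min_le_right _ _)) hpQ.le)
    have : (8002 : ℚ) * n + 2 * ((m : ℚ) * p) < ((5 * f + th : ℕ) : ℚ) * p := by
      rw [← hm, ← hth] at this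
      linarith
    exact_mod_cast this
  have hq : m * p ≤ 5999 * n + p := by
    have h1 : (m - 1) * 4000 ≤ f * 5999 := by
      rw [hm, intM, Nat.add_sub_cancel]
      exact Nat.div_mul_le_self _ _
    have hmp : m * p = (m - 1) * p + p := by
      rw [hm, intM, Nat.add_sub_cancel]
      ring
    nlinarith [Nat.mul_le_mul_right p h1]
  have hth2 : th = 1 ∨ (th = 2 ∧ Odd f) := by
    rw [hth, intTh]
    split_ifs with h
    · exact Or.inr ⟨rfl, Nat.odd_iff.2 h⟩
    · exact Or.inl rfl
  set a := eA n - f * p with ha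
  set M := m * p - eM n with hM
  set G := smallG a M with hG
  have hGdeg : G.natDegree + 1 < th * p := by
    have := natDegree_smallG_le a M
    have : (5 * f + th) * p = 5 * (f * p) + th * p := by ring
    simp only [ha, hM, eA, eM, hG] at *
    omega
  have hGzero : ∀ i, p ∣ i + 1 → G.coeff i = 0 := by
    intro i hi
    by_contra hne
    have hid := le_natDegree_of_ne_zero hne
    obtain ⟨c, hc⟩ := hi
    have hcpos : 0 < c := Nat.pos_of_mul_pos_left (a := p) (by omega)
    have hclt : c < th := by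
      by_contra hcon
      have := Nat.mul_le_mul_left p (Nat.not_lt.1 hcon)
      rw [mul_comm th p] at hGdeg
      omega
    rcases hth2 with h | ⟨h, hf⟩
    · omega
    · have hc1 : c = 1 := by omega
      subst hc1
      have hpodd : Odd p := hp.odd_of_ne_two (by omega)
      refine hne (smallG_coeff_even ?_ ?_)
      · have : Odd (f * p) := hf.mul hpodd
        rw [Nat.odd_iff] at this ⊢
        simp only [ha, eA]
        omega
      · rw [Nat.odd_iff] at hpodd
        rw [Nat.even_iff]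
        omega
  set U : ℤ[X] := (X * qZ) ^ f with hU
  obtain ⟨V0, hV0, hV0d⟩ := pow_eq_expand_add (p := p) U
  have hUd : U.natDegree ≤ 5 * f := by
    refine natDegree_pow_le.trans ?_
    have : (X * qZ).natDegree ≤ 5 :=
      natDegree_mul_le.trans (by have := natDegree_qZ_le; have := natDegree_X_le (R := ℤ); omega)
    rw [mul_comm 5 f]
    exact Nat.mul_le_mul_left f this
  set T := expand ℤ p U * G with hT
  have hTz : ∀ l, p ∣ l + 1 → T.coeff l = 0 := fun l hl => expand_mul_coeff U G hGzero hl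
  have hTd : T.natDegree ≤ 5 * (f * p) + G.natDegree := by
    refine natDegree_mul_le.trans ?_
    rw [natDegree_expand]
    have := Nat.mul_le_mul_left p hUd
    have : p * (5 * f) = 5 * (f * p) := by ring
    have : U.natDegree * p = p * U.natDegree := by ring
    omega
  set E := antider T with hE
  set cast := Int.castRingHom ℚ with hcast
  set V2 : ℚ[X] := (V0 * G * wZ).map cast + C ((2 * m : ℕ) : ℚ) * X * E with hV2
  set q := m * p with hqdef
  -- the key identity
  have hkey : ∀ z : ℂ, Off z → R n z =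
      (aeval z (derivative E) * (z ^ 2 - 25) - aeval z E * ((q : ℂ) * (2 * z))) / (z ^ 2 - 25) ^ (q + 1)
      + (p : ℂ) * (aeval z V2 / (z ^ 2 - 25) ^ (q + 1)) := by
    intro z hz
    have hw : z ^ 2 - 25 ≠ 0 := by
      intro h
      rcases mul_eq_zero.1 (show (z - 5) * (-z - 5) = 0 by linear_combination -h) with h' | h'
      · exact hz.1 h'
      · exact hz.2 h'
    have hpow : (z ^ 2 - 25) ^ (q + 1) = (z ^ 2 - 25) ^ eM n * (z ^ 2 - 25) ^ (M + 1) := by
      rw [← pow_add]
      congr 1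
      simp only [hM, hqdef, eM] at *
      omega
    have hnum : (aeval z ((U ^ p * G).map cast) : ℂ) =
        (z ^ 4 + 6 * z ^ 2 + 25) ^ eA n * z ^ eA n * (z ^ 2 - 25) ^ M := by
      have hsplit : eA n = f * p + a := by simp only [ha, eA]; omega
      simp only [hU, hG, smallG, qZ, wZ, Polynomial.map_mul, Polynomial.map_pow, Polynomial.map_add,
        Polynomial.map_sub, map_X, map_C, map_mul, map_pow, map_add, map_sub, aeval_X, aeval_C, hcast]
      simp only [eq_intCast, eq_ratCast]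
      push_cast
      rw [hsplit, pow_add, pow_add, ← pow_mul, mul_pow]
      ring
    rw [derivative_antider, hT, R, ← mul_div_assoc, ← add_div]
    rw [hV0, add_mul, Polynomial.map_add, map_add, hcast] at hnum
    simp only [hV2, hcast, hqdef, Polynomial.map_mul, map_mul, map_add, wZ, Polynomial.map_sub,
      Polynomial.map_pow, map_X, map_C, map_sub, map_pow, aeval_X, aeval_C, eq_intCast, eq_ratCast, Polynomial.map_natCast,
      Polynomial.map_ofNat, map_natCast, map_ofNat] at hnum ⊢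
    push_cast at hnum ⊢
    rw [hpow]
    have h1 := pow_ne_zero (eM n) hw
    field_simp
    linear_combination -(z ^ 2 - 25) * hnum
  obtain ⟨k, γ, hγ, hrange, hev⟩ := decomp V2 (q + 1)
  -- coefficients of `V2`
  have hV2c : ∀ i, V2.coeff i ∈ pSub p := by
    intro i
    rw [hV2, coeff_add, coeff_map]
    refine add_mem (intCast_mem _ _) ?_
    rcases i with _ | i
    · simp [mul_assoc]
    · rw [mul_assoc, coeff_C_mul, coeff_X_mul]
      exact mul_mem (natCast_mem _ _) (antider_coeff_mem T hTz i)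
  have hshift : ∀ i, (V2.comp (X + C 5)).coeff i ∈ pSub p := by
    obtain ⟨W2, hW2⟩ : ∃ W2 : (pSub p)[X], W2.map (pSub p).subtype = V2 := by
      rw [← Polynomial.mem_lifts]
      exact (Polynomial.lifts_iff_coeff_lifts V2).2 fun i => ⟨⟨_, hV2c i⟩, rfl⟩
    intro i
    have : V2.comp (X + C 5) = (W2.comp (X + C 5)).map (pSub p).subtype := by
      simp [Polynomial.map_comp, hW2, map_ofNat]
    rw [this, coeff_map]
    exact SetLike.coe_mem _
  have hγmem : ∀ e, γ e ∈ pSub p := fun e => by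
    rw [hγ]
    exact sum_mem fun i _ => mul_mem (mul_mem (hshift i) (int_mem _)) (ten_zpow_mem hnd _)
  have hsupp : ∀ e, γ e ≠ 0 → (e + 1).natAbs ≤ 20000 * n := by
    intro e he
    rw [hγ] at he
    obtain ⟨i, hi, hne⟩ := Finset.exists_ne_zero_of_sum_ne_zero he
    have hk : k i e ≠ 0 := by
      intro h0
      simp [h0] at hne
    have hi' : i ≤ V2.natDegree := Nat.lt_succ_iff.1 (Finset.mem_range.1 hi)
    have hr := hrange i hi' e hk
    have hd2 : V2.natDegree ≤ 5 * (f * p) + G.natDegree + 2 := by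
      refine (natDegree_add_le _ _).trans (max_le ?_ ?_)
      · refine natDegree_map_le.trans (natDegree_mul_le.trans ?_)
        have := natDegree_mul_le (p := V0) (q := G)
        have := natDegree_wZ_le
        have := Nat.mul_le_mul_left p hUd
        have : p * (5 * f) = 5 * (f * p) := by ring
        omega
      · rw [mul_assoc]
        refine (natDegree_C_mul_le _ _).trans (natDegree_mul_le.trans ?_)
        have := natDegree_antider_le T
        have := natDegree_X_le (R := ℚ)
        rw [hE]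
        omega
    have hGd := natDegree_smallG_le a M
    simp only [ha, hM, eA, eM, hG, hqdef] at *
    omega
  -- integrate
  have hWc : ∀ y : ℝ, ((-1 : ℂ) + (y : ℂ) * Complex.I) ^ 2 - 25 ≠ 0 := sq_ne
  set dF : ℂ → ℂ := fun z =>
    (aeval z (derivative E) * (z ^ 2 - 25) - aeval z E * ((q : ℂ) * (2 * z))) / (z ^ 2 - 25) ^ (q + 1)
  set F : ℂ → ℂ := fun z => aeval z E / (z ^ 2 - 25) ^ q
  set dS : ℂ → ℂ := fun z => (dF z + dF (-z)) / 2
  set S : ℂ → ℂ := fun z => (F z - F (-z)) / 2
  have hsum : ∀ y : ℝ, R n (-1 + (y : ℂ) * Complex.I) = dS (-1 + (y : ℂ) * Complex.I)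
      + ((p : ℂ) / 2) * evalPhi γ (-1 + (y : ℂ) * Complex.I) := by
    intro y
    set z := (-1 : ℂ) + (y : ℂ) * Complex.I
    have hz := off_seg y
    have hRn : R n (-z) = R n z := by
      rw [R_eq, R_eq, neg_sq, neg_neg, add_comm (aeval (-z) _)]
    have e1 := hkey z hz
    have e2 := hkey (-z) (off_neg hz)
    rw [hRn] at e2
    rw [← hev z hz]
    simp only [dS, dF]
    simp only [neg_sq] at e2 ⊢
    linear_combination (1 / 2 : ℂ) * e1 + (1 / 2 : ℂ) * e2
  have hcdS : Continuous fun y : ℝ => dS (-1 + (y : ℂ) * Complex.I) := by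
    simp only [dS, dF]
    refine Continuous.div_const (Continuous.add ?_ ?_) _ <;>
      refine Continuous.div (by fun_prop) (by fun_prop) fun y => pow_ne_zero _ ?_
    · exact hWc y
    · rw [neg_sq]; exact hWc y
  have hcphi : Continuous fun y : ℝ => ((p : ℂ) / 2) * evalPhi γ (-1 + (y : ℂ) * Complex.I) := by
    simp only [evalPhi, Finsupp.sum]
    exact continuous_const.mul (continuous_finsetSum _ fun e _ =>
      continuous_const.mul (continuous_phi_seg e))
  have hJ : J (R n) = J dS + ((p : ℂ) / 2) * J (evalPhi γ) := by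
    unfold J
    rw [← intervalIntegral.integral_const_mul, ← intervalIntegral.integral_add
      (hcdS.intervalIntegrable _ _) (hcphi.intervalIntegrable _ _)]
    exact intervalIntegral.integral_congr fun y _ => hsum y
  have hJS : J dS = -Complex.I * (S zt - S zb) := by
    refine J_eq_of_deriv (fun y => ?_) hcdS
    set z := (-1 : ℂ) + (y : ℂ) * Complex.I
    have hd : ∀ w : ℂ, w ^ 2 - 25 ≠ 0 → HasDerivAt F (dF w) w := by
      intro w hw
      have h1 := Polynomial.hasDerivAt_aeval (𝕜 := ℂ) E w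
      have h2 := (((hasDerivAt_id w).pow 2).sub_const 25).pow q
      refine ((h1.div h2 (pow_ne_zero _ hw)).congr_deriv ?_).congr_of_eventuallyEq
        (Filter.Eventually.of_forall fun _ => rfl)
      simp only [Pi.pow_apply, id_eq, dF]
      rcases Nat.eq_zero_or_pos q with h0 | h0
      · rw [h0]; field_simp; simp
      · obtain ⟨q', hq'⟩ := Nat.exists_eq_add_of_le h0
        rw [hq', show 1 + q' = q' + 1 by ring, Nat.add_sub_cancel]
        have hq0 := pow_ne_zero q' hw
        field_simp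
        push_cast
        ring
    have h1 := hd z (hWc y)
    have h2 := (hd (-z) (by rw [neg_sq]; exact hWc y)).comp z (hasDerivAt_id z).neg
    refine (((h1.sub h2).div_const 2).congr_deriv ?_).congr_of_eventuallyEq
      (Filter.Eventually.of_forall fun _ => rfl)
    simp only [dS]
    ring
  obtain ⟨b', hb'⟩ := isRatC_bPart γ
  obtain ⟨bD, hbD⟩ := isRatC_bPart D.γ
  have hFz : ∀ w, (w = zt ∨ w = -zt) → F w ∈ gs (pSub p) := by
    intro w hw
    have hz : zt ∈ gs (pSub p) := ⟨-1, neg_mem (one_mem _), 2, by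
      simpa using int_mem (p := p) 2, by simp [zt]⟩
    have hEc : ∀ i, E.coeff i ∈ pSub p := antider_coeff_mem T hTz
    simp only [F]
    rw [div_eq_mul_inv, ← inv_pow]
    rcases hw with rfl | rfl
    · exact mul_mem (aeval_gs hEc hz) (pow_mem (inv_wt_mem hnd) _)
    · rw [neg_sq]
      exact mul_mem (aeval_gs hEc (neg_mem hz)) (pow_mem (inv_wt_mem hnd) _)
  have h2 : (2 : ℚ)⁻¹ ∈ pSub p := by
    have : ¬ p ∣ 2 := fun h' => hnd (h'.trans ⟨5, rfl⟩)
    simpa using inv_nat_mem (p := p) this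
  have hconj : S zb = (starRingEnd ℂ) (S zt) := by
    simp only [S, F, zt_conj, map_div₀, map_sub, map_pow, map_neg, Complex.conj_ofNat]
    congr 2 <;>
    · congr 1
      simp only [aeval_eq_sum_range, map_sum, Algebra.smul_def, map_mul, map_pow, map_neg,
        eq_ratCast, map_ratCast]
  obtain ⟨s, hs, hs'⟩ : ∃ s ∈ pSub p, -Complex.I * (S zt - S zb) = (s : ℂ) := by
    obtain ⟨c, hc, d, hd, hcd⟩ :
        S zt ∈ gs (pSub p) := by
      simp only [S]
      rw [div_eq_mul_inv, show (2 : ℂ)⁻¹ = (((2 : ℚ)⁻¹ : ℚ) : ℂ) by push_cast; ring]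
      exact mul_mem (sub_mem (hFz _ (Or.inl rfl)) (hFz _ (Or.inr rfl))) (gs_ratCast h2)
    refine ⟨2 * d, mul_mem (by simpa using int_mem (p := p) 2) hd, ?_⟩
    rw [hconj, hcd]
    simp only [map_add, map_mul, Complex.conj_I, map_ratCast]
    push_cast
    linear_combination -(2 * (d : ℂ)) * Complex.I_mul_I
  have hform : J (R n) = ((s + (p : ℚ) / 2 * b' : ℚ) : ℂ)
      - (((p : ℚ) / 2 * γ (-1) : ℚ) : ℂ) * ((Real.pi / 2 : ℝ) : ℂ) := by
    rw [hJ, hJS, hs', J_evalPhi (f := evalPhi γ) (fun z _ => rfl), hb']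
    push_cast
    ring
  have hform' : J (R n) = (bD : ℂ) - (alpha n : ℂ) * ((Real.pi / 2 : ℝ) : ℂ) := by
    rw [J_evalPhi D.eval, hbD, gamma_neg_one]
  obtain ⟨hal, hb⟩ := form_unique hform' hform
  have hp2 : (p : ℚ) / 2 ∈ pSub p := by
    rw [div_eq_mul_inv]
    exact mul_mem (natCast_mem _ p) h2
  refine ⟨⟨bD, ?_, hbD⟩, hal ▸ mul_mem hp2 (hγmem (-1))⟩
  have hpb : ∃ r ∈ pSub p, (p : ℂ) * bPart γ = (r : ℂ) := by
    rw [bPart, Finset.mul_sum]
    refine Finset.sum_induction _ (fun x => ∃ r ∈ pSub p, x = (r : ℂ)) ?_ ⟨0, zero_mem _, by simp⟩ ?_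
    · rintro _ _ ⟨a', ha', rfl⟩ ⟨b'', hb'', rfl⟩
      exact ⟨a' + b'', add_mem ha' hb'', by simp⟩
    · intro e he
      obtain ⟨hne, hse⟩ := Finset.mem_erase.1 he
      have hk0 : e + 1 ≠ 0 := by omega
      have hlt := p_div_mem (p := p) hk0 (by
        have := hsupp e (Finsupp.mem_support_iff.1 hse)
        omega)
      obtain ⟨r, hr, hr'⟩ := rho_int hnd (e + 1)
      refine ⟨(p : ℚ) / ((e + 1 : ℤ) : ℚ) * γ e * r, mul_mem (mul_mem hlt (hγmem e)) hr, ?_⟩
      have hkC : ((e + 1 : ℤ) : ℂ) ≠ 0 := Int.cast_ne_zero.2 hk0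
      push_cast at hr' hkC ⊢
      field_simp
      linear_combination (p : ℂ) * (γ e : ℂ) * hr'
  obtain ⟨r, hr, hr'⟩ := hpb
  rw [hb]
  refine add_mem hs ?_
  have : (p : ℚ) * b' = r := by
    rw [hb'] at hr'
    exact_mod_cast hr'
  rw [div_mul_eq_mul_div, this, div_eq_mul_inv]
  exact mul_mem hr h2

end

end Vale.Agent.P021.Arith
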