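import Vale.Agent.P021.Arith.Residue

/-!
Rationals that are integral at a prime, and the Gaussian versions.
-/

namespace Vale.Agent.P021.Arith

open Polynomial

noncomputable section

/-- rationals integral at `p` -/
def pSub (p : ℕ) [Fact p.Prime] : Subring ℚ where
  carrier := {q | padicNorm p q ≤ 1}
  mul_mem' := by
    intro a b (ha : padicNorm p a ≤ 1) (hb : padicNorm p b ≤ 1)
    show padicNorm p (a * b) ≤ 1
    rw [padicNorm.mul]
    exact mul_le_one₀ ha (padicNorm.nonneg b) hb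
  one_mem' := by simp
  add_mem' := fun {a b} ha hb => (padicNorm.nonarchimedean (q := a) (r := b)).trans (max_le ha hb)
  zero_mem' := by simp
  neg_mem' := fun {a} ha => by simpa using ha

lemma mem_pSub {p : ℕ} [Fact p.Prime] {q : ℚ} : q ∈ pSub p ↔ padicNorm p q ≤ 1 := Iff.rfl

/-- Gaussian numbers with components in `S` -/
def gs (S : Subring ℚ) : Subring ℂ where
  carrier := {w | ∃ a ∈ S, ∃ b ∈ S, w = (a : ℂ) + (b : ℂ) * Complex.I}
  mul_mem' := by
    rintro _ _ ⟨a, ha, b, hb, rfl⟩ ⟨c, hc, d, hd, rfl⟩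
    refine ⟨a * c - b * d, S.sub_mem (S.mul_mem ha hc) (S.mul_mem hb hd), a * d + b * c,
      S.add_mem (S.mul_mem ha hd) (S.mul_mem hb hc), ?_⟩
    push_cast
    linear_combination (b : ℂ) * d * Complex.I_mul_I
  one_mem' := ⟨1, S.one_mem, 0, S.zero_mem, by simp⟩
  add_mem' := by
    rintro _ _ ⟨a, ha, b, hb, rfl⟩ ⟨c, hc, d, hd, rfl⟩
    exact ⟨a + c, S.add_mem ha hc, b + d, S.add_mem hb hd, by push_cast; ring⟩
  zero_mem' := ⟨0, S.zero_mem, 0, S.zero_mem, by simp⟩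
  neg_mem' := by
    rintro _ ⟨a, ha, b, hb, rfl⟩
    exact ⟨-a, S.neg_mem ha, -b, S.neg_mem hb, by push_cast; ring⟩

lemma gs_ratCast {S : Subring ℚ} {q : ℚ} (h : q ∈ S) : (q : ℂ) ∈ gs S :=
  ⟨q, h, 0, S.zero_mem, by simp⟩

lemma gs_I {S : Subring ℚ} : Complex.I ∈ gs S := ⟨0, S.zero_mem, 1, S.one_mem, by simp⟩

lemma gs_real {S : Subring ℚ} {q : ℚ} (h : (q : ℂ) ∈ gs S) : q ∈ S := by
  obtain ⟨a, ha, b, -, h⟩ := h
  have := congrArg Complex.re h
  simp at this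
  have hq : q = a := by exact_mod_cast this
  exact hq ▸ ha

lemma gs_conj {S : Subring ℚ} {w : ℂ} (h : w ∈ gs S) : (starRingEnd ℂ) w ∈ gs S := by
  obtain ⟨a, ha, b, hb, rfl⟩ := h
  exact ⟨a, ha, -b, S.neg_mem hb, by simp⟩

variable {p : ℕ} [Fact p.Prime]

lemma int_mem (k : ℤ) : (k : ℚ) ∈ pSub p := intCast_mem _ k

lemma inv_nat_mem {k : ℕ} (h : ¬ p ∣ k) : (k : ℚ)⁻¹ ∈ pSub p := by
  show padicNorm p _ ≤ 1
  rw [inv_eq_one_div, padicNorm.div, padicNorm.one, (padicNorm.nat_eq_one_iff k).2 h]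
  norm_num

lemma div_int_mem {k : ℤ} (h : ¬ (p : ℤ) ∣ k) {q : ℚ} (hq : q ∈ pSub p) : q / (k : ℚ) ∈ pSub p := by
  show padicNorm p _ ≤ 1
  rw [padicNorm.div, (padicNorm.int_eq_one_iff k).2 h, div_one]
  exact hq

lemma ten_zpow_mem (h : ¬ p ∣ 10) (k : ℤ) : (10 : ℚ) ^ k ∈ pSub p := by
  obtain ⟨m, rfl | rfl⟩ := k.eq_nat_or_neg
  · rw [zpow_natCast]
    exact pow_mem (by simpa using natCast_mem (pSub p) 10) m
  · rw [zpow_neg, zpow_natCast, ← inv_pow]
    exact pow_mem (by simpa using inv_nat_mem (p := p) (k := 10) h) m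

/-- a rational is an integer if it is integral at every prime -/
lemma int_of_pSub {q : ℚ} (h : ∀ p : ℕ, ∀ hp : p.Prime, q ∈ @pSub p ⟨hp⟩) : ∃ m : ℤ, q = m := by
  refine ⟨q.num, ?_⟩
  have hden : q.den = 1 := by
    by_contra hne
    obtain ⟨r, hr, hdvd⟩ := Nat.exists_prime_and_dvd hne
    haveI := Fact.mk hr
    have hq : padicNorm r q ≤ 1 := h r hr
    have hnum : ¬ (r : ℤ) ∣ q.num := by
      intro hh
      have : r ∣ Nat.gcd q.num.natAbs q.den := Nat.dvd_gcd (Int.natCast_dvd.1 hh) hdvd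
      rw [q.reduced.gcd_eq_one] at this
      exact hr.ne_one (Nat.dvd_one.1 this)
    rw [← q.num_div_den, padicNorm.div, (padicNorm.int_eq_one_iff _).2 hnum] at hq
    have h2 : padicNorm r (q.den : ℚ) < 1 := (padicNorm.nat_lt_one_iff _).2 hdvd
    have h3 : 0 < padicNorm r (q.den : ℚ) :=
      lt_of_le_of_ne (padicNorm.nonneg _) (padicNorm.nonzero (by exact_mod_cast q.den_nz)).symm
    have h4 := (div_le_one h3).1 hq
    linarith
  conv_lhs => rw [← q.num_div_den, hden]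
  simp

end

end Vale.Agent.P021.Arith
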